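import Vale.Agent.P193.Full.Core.Loops.Peaks.Push

/-! Peaks: every loop is trivial once the flat loops are (`allLoops_of_flat`). -/
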