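import Vale.Agent.P193.Full.Core.Loops.Flat
import Vale.Agent.P193.Full.Core.Loops.Peaks

/-! All loops are congruent to the empty word, for a congruence that knows the short true rules. -/

namespace Vale.Agent.P193.Core.Loops

variable {d : Data} [DecidableEq d.M.A] {hG : Good d}
  {R : Set (Point d) → List (Letter d) → List (Letter d) → Prop}

/-- Every loop is trivial when the definable sets are decided by windows. -/
theorem allLoops {Df : Set (Point d) → Prop} (C : Ctx hG Df R) (hW : ∀ e, Df e → WinDef e) :
    AllLoops hG Df R :=
  allLoops_of_flat C (flatLoops C hW)

/-- Every loop is trivial on the definable sets of a setup whose predicates are atoms. -/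
theorem allLoops_def {D : Calc.Setup (Point d)} (hset : ∀ k, ∃ a : Inst.Atom d, D.set k = a.set)
    (C : Ctx hG D.Def R) : AllLoops hG D.Def R :=
  allLoops C fun _ he => winDef_of_def hset he

end Vale.Agent.P193.Core.Loops
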