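import Vale.Agent.P193.Full.Sys

/-! Words in partial bijections and an abstract congruence on them: a word that rises and falls
in a height function can be made flat by removing peaks. -/

namespace Vale.Agent.P193.Loops

open Classical

/-- Partial bijections closed under inverse. -/
structure Sys (S ι : Type) where
  g : ι → Set (S × S)
  pb : ∀ i, IsPB (g i)
  inv : ι → ι
  g_inv : ∀ i, g (inv i) = ginv (g i)

variable {S ι : Type}

namespace Sys

variable (K : Sys S ι)

/-- A word carries `x` to `y`. -/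
def Run : List ι → S → S → Prop
  | [], x, y => x = y
  | i :: w, x, y => ∃ z, (x, z) ∈ K.g i ∧ Run w z y

/-- The domain of a word. -/
def dom (w : List ι) : Set S := {x | ∃ y, K.Run w x y}

/-- The image of a set under a word. -/
def wimg (w : List ι) (e : Set S) : Set S := {y | ∃ x ∈ e, K.Run w x y}

/-- The inverse word. -/
def winv (w : List ι) : List ι := (w.map K.inv).reverse

variable {K}

theorem run_append {u v : List ι} {x y : S} :
    K.Run (u ++ v) x y ↔ ∃ z, K.Run u x z ∧ K.Run v z y := by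
  induction u generalizing x with
  | nil => exact ⟨fun h => ⟨x, rfl, h⟩, fun ⟨z, h, h'⟩ => by rwa [show x = z from h]⟩
  | cons i u ih =>
    constructor
    · rintro ⟨z, hz, h⟩
      obtain ⟨z', h1, h2⟩ := ih.1 h
      exact ⟨z', ⟨z, hz, h1⟩, h2⟩
    · rintro ⟨z', ⟨z, hz, h1⟩, h2⟩
      exact ⟨z, hz, ih.2 ⟨z', h1, h2⟩⟩

theorem run_singleton {i : ι} {x y : S} : K.Run [i] x y ↔ (x, y) ∈ K.g i :=
  ⟨fun ⟨_, h, e⟩ => (show _ = y from e) ▸ h, fun h => ⟨y, h, rfl⟩⟩

theorem run_func {w : List ι} {x y y' : S} (h : K.Run w x y) (h' : K.Run w x y') : y = y' := by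
  induction w generalizing x with
  | nil => exact (show x = y from h).symm.trans h'
  | cons i w ih =>
    obtain ⟨z, hz, h⟩ := h
    obtain ⟨z', hz', h'⟩ := h'
    obtain rfl := (K.pb i).1 _ _ _ hz hz'
    exact ih h h'

theorem run_inv {w : List ι} {x y : S} : K.Run (K.winv w) x y ↔ K.Run w y x := by
  induction w generalizing x y with
  | nil => exact ⟨Eq.symm, Eq.symm⟩
  | cons i w ih =>
    rw [winv, List.map_cons, List.reverse_cons, ← winv, run_append]
    constructor
    · rintro ⟨z, h, h'⟩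
      rw [run_singleton, K.g_inv] at h'
      exact ⟨z, h', ih.1 h⟩
    · rintro ⟨z, h, h'⟩
      refine ⟨z, ih.2 h', ?_⟩
      rw [run_singleton, K.g_inv]
      exact h

theorem run_inj {w : List ι} {x x' y : S} (h : K.Run w x y) (h' : K.Run w x' y) : x = x' :=
  run_func (run_inv.2 h) (run_inv.2 h')

theorem dom_append {u v : List ι} {e : Set S} :
    e ⊆ K.dom (u ++ v) ↔ e ⊆ K.dom u ∧ K.wimg u e ⊆ K.dom v := by
  constructor
  · intro h
    refine ⟨fun x hx => ?_, ?_⟩
    · obtain ⟨y, hy⟩ := h hx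
      obtain ⟨z, hz, -⟩ := run_append.1 hy
      exact ⟨z, hz⟩
    · rintro z ⟨x, hx, hz⟩
      obtain ⟨y, hy⟩ := h hx
      obtain ⟨z', hz', h'⟩ := run_append.1 hy
      exact ⟨y, run_func hz hz' ▸ h'⟩
  · rintro ⟨h1, h2⟩ x hx
    obtain ⟨z, hz⟩ := h1 hx
    obtain ⟨y, hy⟩ := h2 ⟨x, hx, hz⟩
    exact ⟨y, run_append.2 ⟨z, hz, hy⟩⟩

theorem wimg_append (u v : List ι) (e : Set S) : K.wimg (u ++ v) e = K.wimg v (K.wimg u e) := by
  ext y
  constructor
  · rintro ⟨x, hx, h⟩
    obtain ⟨z, h1, h2⟩ := run_append.1 h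
    exact ⟨z, ⟨x, hx, h1⟩, h2⟩
  · rintro ⟨z, ⟨x, hx, h1⟩, h2⟩
    exact ⟨x, hx, run_append.2 ⟨z, h1, h2⟩⟩

theorem wimg_nil (e : Set S) : K.wimg [] e = e := by
  ext y
  exact ⟨fun ⟨x, hx, h⟩ => (show x = y from h) ▸ hx, fun h => ⟨y, h, rfl⟩⟩

end Sys

/-- The congruence that the calculus provides on definable sets. -/
structure Laws (K : Sys S ι) (Df : Set S → Prop) (R : Set S → List ι → List ι → Prop) : Prop where
  univ : Df Set.univ
  img : ∀ i e, Df e → Df (K.wimg [i] e)
  inter : ∀ e e', Df e → Df e' → Df (e ∩ e')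
  diff : ∀ e e', Df e → Df e' → Df (e \ e')
  empty : ∀ u v, R ∅ u v
  refl : ∀ e u, Df e → e ⊆ K.dom u → R e u u
  symm : ∀ e u v, R e u v → R e v u
  trans : ∀ e u v w, R e u v → R e v w → R e u w
  front : ∀ e a u v, Df e → e ⊆ K.dom (a ++ u) → e ⊆ K.dom (a ++ v) →
    R (K.wimg a e) u v → R e (a ++ u) (a ++ v)
  back : ∀ e u v b, Df e → e ⊆ K.dom (u ++ b) → e ⊆ K.dom (v ++ b) →
    (∀ x ∈ e, ∃ y, K.Run u x y ∧ K.Run v x y) → R e u v → R e (u ++ b) (v ++ b)
  cancel : ∀ e i, Df e → e ⊆ K.dom [i] → R e [i, K.inv i] []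
  split : ∀ e e' u v, Df e → Df e' → R (e ∩ e') u v → R (e \ e') u v → R e u v
  mono : ∀ e e' u v, Df e → Df e' → e' ⊆ e → R e u v → R e' u v

/-- Two words that act alike on a definable set and are congruent there. -/
structure Rw (K : Sys S ι) (Df : Set S → Prop) (R : Set S → List ι → List ι → Prop) (e : Set S)
    (u v : List ι) : Prop where
  df : Df e
  same : ∀ x ∈ e, ∃ y, K.Run u x y ∧ K.Run v x y
  rel : R e u v

variable {K : Sys S ι} {Df : Set S → Prop} {R : Set S → List ι → List ι → Prop}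
  (L : Laws K Df R)

include L

theorem Laws.wimg_df {w : List ι} {e : Set S} (h : Df e) : Df (K.wimg w e) := by
  induction w generalizing e with
  | nil => rwa [Sys.wimg_nil]
  | cons i w ih =>
    rw [show i :: w = [i] ++ w from rfl, Sys.wimg_append]
    exact ih (L.img i e h)

theorem Laws.dom_df (w : List ι) : Df (K.dom w) := by
  have : K.dom w = K.wimg (K.winv w) Set.univ := by
    ext x
    exact ⟨fun ⟨y, h⟩ => ⟨y, trivial, Sys.run_inv.2 h⟩, fun ⟨y, _, h⟩ => ⟨y, Sys.run_inv.1 h⟩⟩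
  rw [this]
  exact L.wimg_df L.univ

theorem Laws.of_empty {u v : List ι} : Rw K Df R ∅ u v := by
  refine ⟨?_, fun x hx => absurd hx (Set.notMem_empty x), L.empty u v⟩
  simpa using L.diff _ _ L.univ L.univ

namespace Rw

variable {e e' : Set S} {a b u v w : List ι}

theorem refl (he : Df e) (h : e ⊆ K.dom u) : Rw K Df R e u u :=
  ⟨he, fun x hx => (h hx).imp fun _ hy => ⟨hy, hy⟩, L.refl e u he h⟩

omit L in
theorem left (h : Rw K Df R e u v) : e ⊆ K.dom u := fun x hx => (h.same x hx).imp fun _ p => p.1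

omit L in
theorem right (h : Rw K Df R e u v) : e ⊆ K.dom v := fun x hx => (h.same x hx).imp fun _ p => p.2

theorem symm (h : Rw K Df R e u v) : Rw K Df R e v u :=
  ⟨h.df, fun x hx => (h.same x hx).imp fun _ p => ⟨p.2, p.1⟩, L.symm _ _ _ h.rel⟩

theorem trans (h : Rw K Df R e u v) (h' : Rw K Df R e v w) : Rw K Df R e u w := by
  refine ⟨h.df, fun x hx => ?_, L.trans _ _ _ _ h.rel h'.rel⟩
  obtain ⟨y, hu, hv⟩ := h.same x hx
  obtain ⟨y', hv', hw⟩ := h'.same x hx
  exact ⟨y, hu, Sys.run_func hv' hv ▸ hw⟩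

theorem front (he : Df e) (ha : e ⊆ K.dom a) (h : Rw K Df R (K.wimg a e) u v) :
    Rw K Df R e (a ++ u) (a ++ v) := by
  have s : ∀ x ∈ e, ∃ y, K.Run (a ++ u) x y ∧ K.Run (a ++ v) x y := fun x hx => by
    obtain ⟨z, hz⟩ := ha hx
    obtain ⟨y, hu, hv⟩ := h.same z ⟨x, hx, hz⟩
    exact ⟨y, Sys.run_append.2 ⟨z, hz, hu⟩, Sys.run_append.2 ⟨z, hz, hv⟩⟩
  exact ⟨he, s, L.front e a u v he (fun x hx => (s x hx).imp fun _ p => p.1)
    (fun x hx => (s x hx).imp fun _ p => p.2) h.rel⟩

theorem back (h : Rw K Df R e u v) (hb : e ⊆ K.dom (u ++ b)) :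
    Rw K Df R e (u ++ b) (v ++ b) := by
  have s : ∀ x ∈ e, ∃ y, K.Run (u ++ b) x y ∧ K.Run (v ++ b) x y := fun x hx => by
    obtain ⟨y, hy⟩ := hb hx
    obtain ⟨z, hz, hzy⟩ := Sys.run_append.1 hy
    obtain ⟨z', hu, hv⟩ := h.same x hx
    exact ⟨y, hy, Sys.run_append.2 ⟨z, Sys.run_func hu hz ▸ hv, hzy⟩⟩
  exact ⟨h.df, s, L.back e u v b h.df hb (fun x hx => (s x hx).imp fun _ p => p.2) h.same h.rel⟩

/-- Replace a segment inside a word. -/
theorem inside (he : Df e) (hd : e ⊆ K.dom (a ++ u ++ b))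
    (h : Rw K Df R (K.wimg a e) u v) : Rw K Df R e (a ++ u ++ b) (a ++ v ++ b) := by
  have := Sys.dom_append.1 hd
  exact (Rw.front L he (Sys.dom_append.1 this.1).1 h).back L hd

theorem mono (he : Df e') (hs : e' ⊆ e) (h : Rw K Df R e u v) : Rw K Df R e' u v :=
  ⟨he, fun x hx => h.same x (hs hx), L.mono _ _ _ _ h.df he hs h.rel⟩

theorem split (he : Df e) (he' : Df e') (h : Rw K Df R (e ∩ e') u v)
    (h' : Rw K Df R (e \ e') u v) : Rw K Df R e u v := by
  refine ⟨he, fun x hx => ?_, L.split _ _ _ _ he he' h.rel h'.rel⟩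
  by_cases hx' : x ∈ e'
  exacts [h.same x ⟨hx, hx'⟩, h'.same x ⟨hx, hx'⟩]

theorem of_eq_empty (he : e = ∅) : Rw K Df R e u v := he ▸ L.of_empty

theorem cancel_word (he : Df e) (h : e ⊆ K.dom w) : Rw K Df R e (w ++ K.winv w) [] := by
  induction w generalizing e with
  | nil => exact Rw.refl L he h
  | cons i w ih =>
    have hi : e ⊆ K.dom [i] ∧ K.wimg [i] e ⊆ K.dom w := Sys.dom_append.1 h
    have step := ih (L.img i e he) hi.2
    have c : Rw K Df R e [i, K.inv i] [] := by
      refine ⟨he, fun x hx => ?_, L.cancel e i he hi.1⟩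
      obtain ⟨y, hy⟩ := hi.1 hx
      refine ⟨x, Sys.run_append (u := [i]).2 ⟨y, hy, ?_⟩, rfl⟩
      rw [Sys.run_singleton, K.g_inv]
      exact Sys.run_singleton.1 hy
    have e1 : (i :: w) ++ K.winv (i :: w) = [i] ++ (w ++ K.winv w) ++ [K.inv i] := by
      simp [Sys.winv]
    rw [e1]
    refine Rw.trans L ?_ c
    refine Rw.inside L (a := [i]) (b := [K.inv i]) (v := []) he ?_ step
    intro x hx
    obtain ⟨y, hy, -⟩ := c.same x hx
    obtain ⟨z, hz, hzy⟩ := Sys.run_append (u := [i]).1 hy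
    obtain ⟨z', hz', hz''⟩ := step.same z ⟨x, hx, hz⟩
    obtain rfl : z = z' := hz''
    exact ⟨y, Sys.run_append.2 ⟨z, Sys.run_append.2 ⟨z, hz, hz'⟩, hzy⟩⟩

/-- A loop may be rotated. -/
theorem rotate (he : Df e) (hloop : ∀ x ∈ e, K.Run (a ++ b) x x)
    (h : Rw K Df R (K.wimg a e) (b ++ a) []) : Rw K Df R e (a ++ b) [] := by
  have hd : e ⊆ K.dom a := fun x hx => by
    obtain ⟨z, hz, -⟩ := Sys.run_append.1 (hloop x hx)
    exact ⟨z, hz⟩
  have hc := Rw.cancel_word L he hd
  have h1 : e ⊆ K.dom ((a ++ b) ++ (a ++ K.winv a)) := fun x hx => by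
    obtain ⟨y, hy, hy'⟩ := hc.same x hx
    obtain rfl : x = y := hy'
    exact ⟨x, Sys.run_append.2 ⟨x, hloop x hx, hy⟩⟩
  have h2 : Rw K Df R e ((a ++ b) ++ (a ++ K.winv a)) (a ++ K.winv a) := by
    have e1 : (a ++ b) ++ (a ++ K.winv a) = a ++ (b ++ a) ++ K.winv a := by simp
    rw [e1] at h1 ⊢
    simpa using Rw.inside L he h1 h
  have h3 : Rw K Df R e ((a ++ b) ++ (a ++ K.winv a)) ((a ++ b) ++ []) := by
    have hab : K.wimg (a ++ b) e = e := by
      ext y
      exact ⟨fun ⟨x, hx, hr⟩ => Sys.run_func (hloop x hx) hr ▸ hx, fun hy => ⟨y, hy, hloop y hy⟩⟩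
    exact Rw.front L he (fun x hx => ⟨x, hloop x hx⟩) (hab.symm ▸ hc)
  simpa using (Rw.symm L h3).trans L (h2.trans L hc)

end Rw

omit L

/-! ### Peaks -/

/-- No letter of `w` has the value `c`. -/
def Free (μ : ι → ℤ) (c : ℤ) (w : List ι) : Prop := ∀ i ∈ w, μ i ≠ c

theorem exists_peak_or_valley (μ : ι → ℤ) (hμ : ∀ i, μ i = 1 ∨ μ i = 0 ∨ μ i = -1) :
    ∀ w : List ι,
      (∃ a x t y b, w = a ++ (x :: (t ++ [y])) ++ b ∧ μ x = 1 ∧ (∀ i ∈ t, μ i = 0) ∧ μ y = -1) ∨
        ∃ u v, w = u ++ v ∧ Free μ 1 u ∧ Free μ (-1) v := by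
  intro w
  induction w with
  | nil => exact Or.inr ⟨[], [], rfl, by simp [Free], by simp [Free]⟩
  | cons i w ih =>
    rcases ih with ⟨a, x, t, y, b, rfl, h1, h2, h3⟩ | ⟨u, v, rfl, hu, hv⟩
    · exact Or.inl ⟨i :: a, x, t, y, b, rfl, h1, h2, h3⟩
    by_cases hi : μ i = 1
    · by_cases hd : Free μ (-1) u
      · refine Or.inr ⟨[], i :: (u ++ v), rfl, by simp [Free], fun j hj => ?_⟩
        rcases List.mem_cons.1 hj with rfl | hj
        · omega
        · rcases List.mem_append.1 hj with hj | hj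
          exacts [hd j hj, hv j hj]
      · left
        have hd' : ∃ j ∈ u, μ j = -1 := by simpa [Free] using hd
        obtain ⟨j, hj, hjd⟩ := hd'
        clear hd
        induction u generalizing i with
        | nil => simp at hj
        | cons k u ihu =>
          have hk := hu k List.mem_cons_self
          by_cases hkd : μ k = -1
          · exact ⟨[], i, [], k, u ++ v, by simp, hi, by simp, hkd⟩
          have hk0 : μ k = 0 := by rcases hμ k with h | h | h <;> simp_all
          have hj' : j ∈ u := (List.mem_cons.1 hj).resolve_left fun e => hkd (e ▸ hjd)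
          obtain ⟨a, x, t, y, b, he, h1, h2, h3⟩ :=
            ihu i (fun l hl => hu l (List.mem_cons_of_mem _ hl)) hi hj'
          cases a with
          | nil =>
            simp at he
            obtain ⟨rfl, he⟩ := he
            exact ⟨[], i, k :: t, y, b, by simp [he], hi,
              List.forall_mem_cons.2 ⟨hk0, h2⟩, h3⟩
          | cons a₀ a =>
            simp at he
            obtain ⟨rfl, he⟩ := he
            exact ⟨i :: k :: a, x, t, y, b, by simp [he], h1, h2, h3⟩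
    · refine Or.inr ⟨i :: u, v, rfl, fun j hj => ?_, hv⟩
      rcases List.mem_cons.1 hj with rfl | hj
      exacts [hi, hu j hj]

/-- Sum of the heights of a word. -/
def total (μ : ι → ℤ) (w : List ι) : ℤ := (w.map μ).sum

/-- The number of letters that change the height. -/
def steep (μ : ι → ℤ) (w : List ι) : ℕ := w.countP fun i => decide (μ i ≠ 0)

/-- Every word of the alphabet whose steps change the height by one at a time, and every peak of
which is congruent to a flat word: then every loop is trivial once the flat loops are. -/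
structure Height (K : Sys S ι) (Df : Set S → Prop) (R : Set S → List ι → List ι → Prop)
    (ok : ι → Prop) where
  μ : ι → ℤ
  hμ : ∀ i, μ i = 1 ∨ μ i = 0 ∨ μ i = -1
  size : S → ℕ
  hsize : ∀ i, ok i → ∀ x y, (x, y) ∈ K.g i → (size y : ℤ) = size x + μ i
  peak : ∀ e x t y, Df e → ok x → (∀ i ∈ t, ok i ∧ μ i = 0) → ok y → μ x = 1 → μ y = -1 →
    e ⊆ K.dom (x :: (t ++ [y])) →
    ∃ t', (∀ i ∈ t', ok i ∧ μ i = 0) ∧ Rw K Df R e (x :: (t ++ [y])) t'

variable {ok : ι → Prop} (H : Height K Df R ok)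

theorem Height.total_run {w : List ι} (hw : ∀ i ∈ w, ok i) {x y : S} (h : K.Run w x y) :
    (H.size y : ℤ) = H.size x + total H.μ w := by
  induction w generalizing x with
  | nil => rw [show x = y from h]; simp [total]
  | cons i w ih =>
    obtain ⟨z, hz, h⟩ := h
    rw [ih (fun j hj => hw j (List.mem_cons_of_mem _ hj)) h,
      H.hsize i (hw i List.mem_cons_self) x z hz]
    simp [total]; omega

theorem flat_of_steep_eq_zero {μ : ι → ℤ} {w : List ι} (h : steep μ w = 0) : ∀ i ∈ w, μ i = 0 := by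
  intro i hi
  simpa using List.countP_eq_zero.1 h i hi

include L

theorem Height.remove_peak {e : Set S} {w a b t : List ι} {x y : ι} (he : Df e)
    (hw : ∀ i ∈ w, ok i) (hd : e ⊆ K.dom w) (hwe : w = a ++ (x :: (t ++ [y])) ++ b)
    (h1 : H.μ x = 1) (h2 : ∀ i ∈ t, H.μ i = 0) (h3 : H.μ y = -1) :
    ∃ w', (∀ i ∈ w', ok i) ∧ steep H.μ w' < steep H.μ w ∧ Rw K Df R e w w' := by
  subst hwe
  have hd' := Sys.dom_append.1 (Sys.dom_append.1 hd).1
  obtain ⟨t', ht', hR⟩ := H.peak (K.wimg a e) x t y (L.wimg_df he) (hw x (by simp))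
    (fun i hi => ⟨hw i (by simp [hi]), h2 i hi⟩) (hw y (by simp)) h1 h3 hd'.2
  refine ⟨a ++ t' ++ b, fun i hi => ?_, ?_, Rw.inside L he hd hR⟩
  · simp only [List.mem_append] at hi
    rcases hi with (hi | hi) | hi
    exacts [hw i (by simp [hi]), (ht' i hi).1, hw i (by simp [hi])]
  · have e1 : steep H.μ t' = 0 := List.countP_eq_zero.2 fun i hi => by simp [(ht' i hi).2]
    have e2 : steep H.μ t = 0 := List.countP_eq_zero.2 fun i hi => by simp [h2 i hi]
    simp only [steep, List.countP_append, List.countP_cons, List.countP_nil] at e1 e2 ⊢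
    rw [e1, e2]
    simp [h1, h3]

/-- A word that starts and ends at height zero is congruent to a flat word. -/
theorem Height.linear {e : Set S} {w : List ι} (he : Df e) (hw : ∀ i ∈ w, ok i)
    (hd : e ⊆ K.dom w) (h0 : ∀ x ∈ e, H.size x = 0 ∧ ∀ y, K.Run w x y → H.size y = 0) :
    ∃ t, (∀ i ∈ t, ok i ∧ H.μ i = 0) ∧ Rw K Df R e w t := by
  induction hn : steep H.μ w using Nat.strong_induction_on generalizing w with
  | _ n ih =>
  subst hn
  rcases e.eq_empty_or_nonempty with hemp | ⟨x₀, hx₀⟩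
  · exact ⟨[], by simp, Rw.of_eq_empty L hemp⟩
  rcases exists_peak_or_valley H.μ H.hμ w with ⟨a, x, t, y, b, hwe, h1, h2, h3⟩ | ⟨u, v, rfl, hu, hv⟩
  · obtain ⟨w', hw', hlt, hR⟩ := H.remove_peak L he hw hd hwe h1 h2 h3
    obtain ⟨t', ht', hR'⟩ := ih _ hlt hw' hR.right (fun z hz => ⟨(h0 z hz).1, fun y' hy' => by
      obtain ⟨y₁, hy₁, hy₂⟩ := hR.same z hz
      exact (h0 z hz).2 y' (Sys.run_func hy₂ hy' ▸ hy₁)⟩) rfl
    exact ⟨t', ht', hR.trans L hR'⟩
  · obtain ⟨y₀, hy₀⟩ := hd hx₀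
    obtain ⟨z, hz, hzy⟩ := Sys.run_append.1 hy₀
    have e1 := H.total_run (fun i hi => hw i (List.mem_append_left _ hi)) hz
    have e2 := H.total_run (fun i hi => hw i (List.mem_append_right _ hi)) hzy
    obtain ⟨s0, s1⟩ := h0 x₀ hx₀
    rw [s0] at e1
    rw [s1 y₀ hy₀] at e2
    have key : ∀ (l : List ι), Free H.μ 1 l → total H.μ l ≤ 0 ∧
        (total H.μ l = 0 → ∀ i ∈ l, H.μ i = 0) := by
      intro l hl
      induction l with
      | nil => simp [total]
      | cons i l ihl =>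
        obtain ⟨a1, a2⟩ := ihl fun j hj => hl j (List.mem_cons_of_mem _ hj)
        have hi := hl i List.mem_cons_self
        have : H.μ i ≤ 0 := by rcases H.hμ i with h | h | h <;> omega
        simp only [total, List.map_cons, List.sum_cons] at a1 a2 ⊢
        exact ⟨by omega, fun h => List.forall_mem_cons.2 ⟨by omega, a2 (by omega)⟩⟩
    have key' : ∀ (l : List ι), Free H.μ (-1) l → 0 ≤ total H.μ l ∧
        (total H.μ l = 0 → ∀ i ∈ l, H.μ i = 0) := by
      intro l hl
      induction l with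
      | nil => simp [total]
      | cons i l ihl =>
        obtain ⟨a1, a2⟩ := ihl fun j hj => hl j (List.mem_cons_of_mem _ hj)
        have hi := hl i List.mem_cons_self
        have : 0 ≤ H.μ i := by rcases H.hμ i with h | h | h <;> omega
        simp only [total, List.map_cons, List.sum_cons] at a1 a2 ⊢
        exact ⟨by omega, fun h => List.forall_mem_cons.2 ⟨by omega, a2 (by omega)⟩⟩
    have k1 := key u hu
    have k2 := key' v hv
    refine ⟨u ++ v, fun i hi => ⟨hw i hi, ?_⟩, Rw.refl L he hd⟩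
    rcases List.mem_append.1 hi with hi | hi
    · exact k1.2 (by omega) i hi
    · exact k2.2 (by omega) i hi

/-- All loops are trivial once the flat ones are. -/
theorem Height.loop
    (hflat : ∀ e t, Df e → (∀ i ∈ t, ok i ∧ H.μ i = 0) → (∀ x ∈ e, K.Run t x x) →
      Rw K Df R e t []) {e : Set S} {w : List ι} (he : Df e) (hw : ∀ i ∈ w, ok i)
    (hloop : ∀ x ∈ e, K.Run w x x) : Rw K Df R e w [] := by
  induction hn : steep H.μ w using Nat.strong_induction_on generalizing w e with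
  | _ n ih =>
  subst hn
  rcases e.eq_empty_or_nonempty with hemp | ⟨x₀, hx₀⟩
  · exact Rw.of_eq_empty L hemp
  by_cases hf : ∀ i ∈ w, H.μ i = 0
  · exact hflat e w he (fun i hi => ⟨hw i hi, hf i hi⟩) hloop
  have step : ∀ {e : Set S} {w a b t : List ι} {x y : ι}, Df e → (∀ i ∈ w, ok i) →
      (∀ z ∈ e, K.Run w z z) → w = a ++ (x :: (t ++ [y])) ++ b → H.μ x = 1 →
      (∀ i ∈ t, H.μ i = 0) → H.μ y = -1 →
      (∀ w', steep H.μ w' < steep H.μ w → ∀ {e : Set S}, Df e → (∀ i ∈ w', ok i) →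
        (∀ z ∈ e, K.Run w' z z) → Rw K Df R e w' []) → Rw K Df R e w [] := by
    intro e w a b t x y he hw hl hwe h1 h2 h3 ih'
    obtain ⟨w', hw', hlt, hR⟩ := H.remove_peak L he hw (fun z hz => ⟨z, hl z hz⟩) hwe h1 h2 h3
    refine hR.trans L (ih' w' hlt he hw' fun z hz => ?_)
    obtain ⟨y₁, hy₁, hy₂⟩ := hR.same z hz
    exact Sys.run_func (hl z hz) hy₁ ▸ hy₂
  rcases exists_peak_or_valley H.μ H.hμ w with ⟨a, x, t, y, b, hwe, h1, h2, h3⟩ | ⟨u, v, rfl, hu, hv⟩
  · exact step he hw hloop hwe h1 h2 h3 fun w' hlt _ he' hw' hl' => ih _ hlt he' hw' hl' rfl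
  -- rotate the valley
  have hsw : steep H.μ (v ++ u) = steep H.μ (u ++ v) := by
    simp [steep, List.countP_append]; omega
  refine Rw.rotate L he hloop ?_
  have hl' : ∀ z ∈ K.wimg u e, K.Run (v ++ u) z z := by
    rintro z ⟨p, hp, hpz⟩
    obtain ⟨z', hz', hz'p⟩ := Sys.run_append.1 (hloop p hp)
    obtain rfl := Sys.run_func hpz hz'
    exact Sys.run_append.2 ⟨p, hz'p, hpz⟩
  have hw' : ∀ i ∈ v ++ u, ok i := fun i hi => hw i (by simp at hi ⊢; tauto)
  rcases exists_peak_or_valley H.μ H.hμ (v ++ u) with ⟨a, x, t, y, b, hwe, h1, h2, h3⟩ |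
    ⟨u', v', heq, hu', hv'⟩
  · exact step (L.wimg_df he) hw' hl' hwe h1 h2 h3 fun w' hlt _ he' hw'' hl'' =>
      ih _ (hsw ▸ hlt) he' hw'' hl'' rfl
  · exfalso
    have htot : total H.μ (u ++ v) = 0 := by
      have := H.total_run hw (hloop x₀ hx₀)
      omega
    obtain ⟨i, hi, hine⟩ : ∃ i ∈ u ++ v, H.μ i ≠ 0 := by simpa using hf
    have hup : ∃ p ∈ v, H.μ p = 1 := by
      by_contra hno
      push Not at hno
      have : ∀ l : List ι, (∀ j ∈ l, H.μ j ≠ 1) → total H.μ l ≤ 0 ∧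
          ((∃ j ∈ l, H.μ j ≠ 0) → total H.μ l < 0) := by
        intro l hl
        induction l with
        | nil => simp [total]
        | cons j l ihl =>
          obtain ⟨a1, a2⟩ := ihl fun q hq => hl q (List.mem_cons_of_mem _ hq)
          have := hl j List.mem_cons_self
          simp only [total, List.map_cons, List.sum_cons] at a1 a2 ⊢
          refine ⟨by rcases H.hμ j with h | h | h <;> omega, ?_⟩
          rintro ⟨q, hq, hq0⟩
          rcases List.mem_cons.1 hq with rfl | hq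
          · rcases H.hμ q with h | h | h <;> omega
          · have := a2 ⟨q, hq, hq0⟩
            rcases H.hμ j with h | h | h <;> omega
      have := (this (u ++ v) fun j hj => (List.mem_append.1 hj).elim (hu j) (hno j)).2 ⟨i, hi, hine⟩
      omega
    have hdn : ∃ p ∈ u, H.μ p = -1 := by
      by_contra hno
      push Not at hno
      have : ∀ l : List ι, (∀ j ∈ l, H.μ j ≠ -1) → 0 ≤ total H.μ l ∧
          ((∃ j ∈ l, H.μ j ≠ 0) → 0 < total H.μ l) := by
        intro l hl
        induction l with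
        | nil => simp [total]
        | cons j l ihl =>
          obtain ⟨a1, a2⟩ := ihl fun q hq => hl q (List.mem_cons_of_mem _ hq)
          have := hl j List.mem_cons_self
          simp only [total, List.map_cons, List.sum_cons] at a1 a2 ⊢
          refine ⟨by rcases H.hμ j with h | h | h <;> omega, ?_⟩
          rintro ⟨q, hq, hq0⟩
          rcases List.mem_cons.1 hq with rfl | hq
          · rcases H.hμ q with h | h | h <;> omega
          · have := a2 ⟨q, hq, hq0⟩
            rcases H.hμ j with h | h | h <;> omega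
      have := (this (u ++ v) fun j hj => (List.mem_append.1 hj).elim (hno j) (hv j)).2 ⟨i, hi, hine⟩
      omega
    obtain ⟨p, hp, hp1⟩ := hup
    obtain ⟨q, hq, hq1⟩ := hdn
    rcases (List.append_eq_append_iff.1 heq.symm) with ⟨as, hv2, hu2⟩ | ⟨bs, hu'', hv''⟩
    · exact hv' q (hu2 ▸ List.mem_append_right _ hq) hq1
    · exact hu' p (hu'' ▸ List.mem_append_left _ hp) hp1

end Vale.Agent.P193.Loops
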