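import Vale.Agent.P193.Full.Core.Loops.Translations

/-! Flat words: no edges and no pushes. -/

namespace Vale.Agent.P193.Core.Loops

open Vale.Agent.P193.Loops Facts

variable {d : Data} [DecidableEq d.M.A] {hG : Good d}

/-- Letters other than edges and pushes. -/
def Flat (i : Letter d) : Prop :=
  (∀ e, i.1 ≠ .edge e) ∧ ∀ P, i.1 ≠ .push P

/-- All flat loops are congruent to the empty word. -/
def FlatLoops (hG : Good d) (Df : Set (Point d) → Prop)
    (R : Set (Point d) → List (Letter d) → List (Letter d) → Prop) : Prop :=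
  ∀ e t, Df e → (∀ i ∈ t, Flat i) → (∀ x ∈ e, (sys hG).Run t x x) → Rw (sys hG) Df R e t []

/-- All loops are congruent to the empty word. -/
def AllLoops (hG : Good d) (Df : Set (Point d) → Prop)
    (R : Set (Point d) → List (Letter d) → List (Letter d) → Prop) : Prop :=
  ∀ e w, Df e → (∀ x ∈ e, (sys hG).Run w x x) → Rw (sys hG) Df R e w []

end Vale.Agent.P193.Core.Loops
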