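import Vale.Agent.P193.Full.Core.Loops.Sem

/-! True commutation rules between letters. -/

namespace Vale.Agent.P193.Core.Loops

open Vale.Agent.P193.Loops Facts

set_option linter.unusedSectionVars false

variable {d : Data} [DecidableEq d.M.A] {hG : Good d}

theorem sub_inner_edge (i : Fin d.n) (e : {e : Edge d // e.OK}) :
    Sub hG [fw (.inner i), fw (.edge e)] [fw (.edge e), fw (.inner i)] := by
  rintro ⟨s, σ, b, w, g, h⟩ y ⟨z, hz, z', hz', rfl⟩
  rw [run_inner] at hz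
  obtain ⟨σ', b', w', g', h', hzeq, rfl⟩ := (run_edge e _ _).1 hz'
  subst hzeq
  simp only [Point.mk.injEq] at hz
  obtain ⟨rfl, hσ, rfl, hw, rfl, rfl⟩ := hz
  cases eq_of_heq hσ
  cases eq_of_heq hw
  exact ⟨_, (run_edge e _ _).2 ⟨_, _, _, _, _, rfl, rfl⟩, _, (run_inner i _ _).2 rfl, rfl⟩

theorem sub_edge_inner (i : Fin d.n) (e : {e : Edge d // e.OK}) :
    Sub hG [fw (.edge e), fw (.inner i)] [fw (.inner i), fw (.edge e)] := by
  rintro x y ⟨z, hz, z', hz', rfl⟩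
  obtain ⟨σ', b', w', g', h', rfl, rfl⟩ := (run_edge e _ _).1 hz
  rw [run_inner] at hz'
  exact ⟨_, (run_inner i _ _).2 rfl, _, (run_edge e _ _).2 ⟨σ', b', w', _, h', rfl, hz'⟩, rfl⟩

theorem sub_edge_outer (a : OGen d × Bool) (e : {e : Edge d // e.OK}) :
    Sub hG [fw (.edge e), (.outer a.1, a.2)] [(.outer a.1, a.2), fw (.edge e)] := by
  rintro x y ⟨z, hz, z', hz', rfl⟩
  obtain ⟨σ', b', w', g', h', rfl, rfl⟩ := (run_edge e _ _).1 hz
  rw [run_outer hG a] at hz'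
  refine ⟨_, (run_outer hG a _ _).2 rfl, _, (run_edge e _ _).2 ⟨σ', b', w', g', _, rfl, ?_⟩, rfl⟩
  rw [hz']
  simp [mul_assoc]

theorem sub_inner_outer (i : Fin d.n) (a : OGen d × Bool) :
    Sub hG [fw (.inner i), (.outer a.1, a.2)] [(.outer a.1, a.2), fw (.inner i)] := by
  rintro x y ⟨z, hz, z', hz', rfl⟩
  rw [run_inner] at hz
  rw [run_outer hG a] at hz'
  subst hz hz'
  exact ⟨_, (run_outer hG a _ _).2 rfl, _, (run_inner i _ _).2 rfl, rfl⟩

theorem sub_u_outer (p : Fin 3 × Bool) (a : OGen d × Bool) :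
    Sub hG [uL p, (.outer a.1, a.2)] [(.outer a.1, a.2), uL p] := by
  rintro x y ⟨z, hz, z', hz', rfl⟩
  obtain ⟨h1, h2, rfl⟩ := (run_u p _ _).1 hz
  rw [run_outer hG a] at hz'
  subst hz'
  exact ⟨_, (run_outer hG a _ _).2 rfl, _, (run_u p _ _).2 ⟨h1, h2, rfl⟩, rfl⟩

theorem sub_inner_push (i : Fin d.n) (P : PushK) (hP : P ≠ .theta) :
    Sub hG [fw (.inner i), fw (.push P)] [fw (.push P), fw (.inner i)] := by
  rintro ⟨s, σ, b, w, g, h⟩ y ⟨z, hz, z', hz', rfl⟩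
  rw [run_inner] at hz
  rw [run_push] at hz'
  cases P
  · exact absurd rfl hP
  · obtain ⟨s', σ', c, g', h', hzeq, rfl⟩ := hz'
    subst hzeq
    simp only [Point.mk.injEq] at hz
    obtain ⟨rfl, hσ, rfl, hw, rfl, rfl⟩ := hz
    cases eq_of_heq hσ
    cases eq_of_heq hw
    exact ⟨_, (run_push _ _ _).2 ⟨_, _, _, _, _, rfl, rfl⟩, _, (run_inner i _ _).2 rfl, rfl⟩
  · obtain ⟨s', σ', c, g', h', hzeq, rfl⟩ := hz'
    subst hzeq
    simp only [Point.mk.injEq] at hz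
    obtain ⟨rfl, hσ, rfl, hw, rfl, rfl⟩ := hz
    cases eq_of_heq hσ
    cases eq_of_heq hw
    exact ⟨_, (run_push _ _ _).2 ⟨_, _, _, _, _, rfl, rfl⟩, _, (run_inner i _ _).2 rfl, rfl⟩
  · obtain ⟨σ', c, g', h', hzeq, rfl⟩ := hz'
    subst hzeq
    simp only [Point.mk.injEq] at hz
    obtain ⟨rfl, hσ, rfl, hw, rfl, rfl⟩ := hz
    cases eq_of_heq hσ
    cases eq_of_heq hw
    refine ⟨_, (run_push _ _ _).2 ⟨_, _, _, _, rfl, rfl⟩, _, (run_inner i _ _).2 rfl, ?_⟩
    simp [mul_assoc, Sys.Run]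
  · obtain ⟨c, g', hzeq, rfl⟩ := hz'
    subst hzeq
    simp only [Point.mk.injEq] at hz
    obtain ⟨rfl, hσ, rfl, hw, rfl, rfl⟩ := hz
    cases eq_of_heq hσ
    cases eq_of_heq hw
    exact ⟨_, (run_push _ _ _).2 ⟨_, _, rfl, rfl⟩, _, (run_inner i _ _).2 rfl, rfl⟩

theorem sub_outer_theta (a : OGen d × Bool) :
    Sub hG [(.outer a.1, a.2), fw (.push .theta)]
      (fw (.push .theta) :: innerW (iw hG (toInner d (OGen.sval a)))) := by
  rintro x y ⟨z, hz, z', hz', rfl⟩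
  rw [run_outer hG a] at hz
  subst hz
  simp only [run_push, PushK.graph, thetaG, Set.mem_ofPred_eq] at hz'
  subst hz'
  refine ⟨⟨.fin, .nil, false, .theta x.σ x.tag x.w x.g, toInner d x.h, 1⟩,
    show (x, _) ∈ thetaG from rfl, (run_innerW hG _ _ _).2 ?_⟩
  rw [iw_prod]
  simp

variable {Df : Set (Point d) → Prop}
  {R : Set (Point d) → List (Letter d) → List (Letter d) → Prop} (C : Ctx hG Df R)

include C

/-- Inner words move past a letter that commutes with every inner generator. -/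
theorem innerW_past (a : Letter d) (h : ∀ i, Sub hG [fw (.inner i), a] [a, fw (.inner i)])
    {e : Set (Point d)} (he : Df e) (l : List (Fin d.n))
    (hd : e ⊆ (sys hG).dom (innerW l ++ [a])) :
    Rw (sys hG) Df R e (innerW l ++ [a]) ([a] ++ innerW l) := by
  have e1 : ∀ l : List (Fin d.n),
      innerW l = l.flatMap fun i => [fw (.inner i)] := fun l => by
    rw [innerW, ← List.flatMap_pure_eq_map]
    rfl
  rw [e1 l] at hd ⊢
  exact Rw.slide C.laws _ (fun i => [fw (.inner i)])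
    (fun i e' he' hd' => C.use (small_le (by simp)) (small_le (by simp)) (h i) he' hd') he l hd

end Vale.Agent.P193.Core.Loops
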