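import Vale.Agent.P193.Full.Core.Facts.Edges
import Vale.Agent.P193.Full.Core.Inst.Defs

/-! The window of the loop condition: on guessing points of the tag without point predicate whose
path starts with many letters, an atom only sees these letters, whether the rest is clean, whether
the outer coordinate is one of finitely many, and the front of the seen offset. -/

namespace Vale.Agent.P193.Core.Loops

open FreeGroup Facts Inst

set_option linter.unusedSectionVars false

section
variable {A : Type} [DecidableEq A]

/-- Two elements have the same first `N` letters. -/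
def Front (N : ℕ) (z z' : FreeGroup A) : Prop := z.toWord.take N = z'.toWord.take N

theorem Front.eq_of_short {N : ℕ} {z z' : FreeGroup A} (h : Front N z z')
    (hz : z.toWord.length < N) : z = z' := by
  have e := congrArg List.length h
  simp only [List.length_take] at e
  have hz' : z'.toWord.length < N := by omega
  rw [Front, List.take_of_length_le hz.le, List.take_of_length_le hz'.le] at h
  exact toWord_injective h

theorem Front.mono {M N : ℕ} {z z' : FreeGroup A} (h : Front N z z') (hMN : M ≤ N) :
    Front M z z' := by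
  have := congrArg (List.take M) h
  simpa [Front, List.take_take, Nat.min_eq_left hMN] using this

theorem toWord_letter_mul (s : A × Bool) (z : FreeGroup A) :
    (z.toWord.head? = some (s.1, !s.2) ∧ (mk [s] * z).toWord = z.toWord.tail) ∨
      (z.toWord.head? ≠ some (s.1, !s.2) ∧ (mk [s] * z).toWord = s :: z.toWord) := by
  by_cases h : z.toWord.head? = some (s.1, !s.2)
  · refine Or.inl ⟨h, ?_⟩
    obtain ⟨v, hv⟩ : ∃ v, z.toWord = (s.1, !s.2) :: v := by
      cases hc : z.toWord with
      | nil => simp [hc] at h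
      | cons a v => simp [hc] at h; exact ⟨v, by rw [h]⟩
    have e : mk [s] * z = mk v := by
      conv_lhs => rw [← mk_toWord (x := z), hv, show mk ((s.1, !s.2) :: v) = mk [(s.1, !s.2)] * mk v
        by rw [mul_mk]; rfl]
      rw [show (mk [(s.1, !s.2)] : FreeGroup A) = (mk [s])⁻¹ by rw [inv_mk]; rfl,
        mul_inv_cancel_left]
    have hr : FreeGroup.IsReduced v := by
      have := isReduced_toWord (x := z)
      rw [hv] at this
      exact (isReduced_cons_iff.1 this).1
    rw [e, toWord_mk_of_reduced hr, hv]
    rfl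
  · exact Or.inr ⟨h, toWord_cons_of_reduced
      (isReduced_cons_iff.2 ⟨isReduced_toWord, fun y hy e => h (by rw [hy, e])⟩)⟩

theorem Front.letter_mul {N : ℕ} {z z' : FreeGroup A} (h : Front (N + 1) z z') (s : A × Bool) :
    Front N (mk [s] * z) (mk [s] * z') := by
  have hh : z.toWord.head? = z'.toWord.head? := by
    have := congrArg List.head? h
    simpa [List.head?_take] using this
  rcases toWord_letter_mul s z with ⟨h1, e1⟩ | ⟨h1, e1⟩ <;>
    rcases toWord_letter_mul s z' with ⟨h2, e2⟩ | ⟨h2, e2⟩
  · rw [Front, e1, e2]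
    have := congrArg List.tail h
    rcases hz : z.toWord with - | ⟨a, u⟩ <;> rcases hz' : z'.toWord with - | ⟨a', u'⟩ <;>
      simp_all
  · exact absurd (hh ▸ h1) h2
  · exact absurd (hh.symm ▸ h2) h1
  · rw [Front, e1, e2]
    have := h.mono (Nat.le_succ N)
    cases N with
    | zero => simp
    | succ M =>
      simp only [List.take_succ_cons]
      exact congrArg _ (this.mono (Nat.le_succ M))

theorem toWord_mul_letter (z : FreeGroup A) (s : A × Bool) :
    (z * mk [s]).toWord = z.toWord.dropLast ∨ (z * mk [s]).toWord = z.toWord ++ [s] := by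
  have key := toWord_letter_mul (s.1, !s.2) z⁻¹
  have e : z * mk [s] = (mk [(s.1, !s.2)] * z⁻¹)⁻¹ := by
    rw [mul_inv_rev, inv_inv, inv_mk]
    simp [FreeGroup.invRev]
  rcases key with ⟨-, k⟩ | ⟨-, k⟩
  · left
    rw [e, toWord_inv, k, toWord_inv, FreeGroup.invRev, FreeGroup.invRev]
    simp [List.tail_reverse, List.map_reverse, List.map_map, Function.comp_def]
  · right
    rw [e, toWord_inv, k, toWord_inv, FreeGroup.invRev, FreeGroup.invRev]
    simp [List.map_reverse, List.map_map, Function.comp_def]

theorem take_dropLast_or_append {N : ℕ} {l : List (A × Bool)} {r : List (A × Bool)}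
    {s : A × Bool} (hl : N < l.length) (hr : r = l.dropLast ∨ r = l ++ [s]) :
    r.take N = l.take N := by
  rcases hr with rfl | rfl
  · rw [List.dropLast_eq_take, List.take_take, Nat.min_eq_left (by omega)]
  · rw [List.take_append_of_le_length hl.le]

theorem Front.mul_letter {N : ℕ} {z z' : FreeGroup A} (h : Front (N + 1) z z') (s : A × Bool) :
    Front N (z * mk [s]) (z' * mk [s]) := by
  by_cases hz : z.toWord.length < N + 1
  · rw [Front, h.eq_of_short hz]
  · have e := congrArg List.length h
    simp only [List.length_take] at e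
    rw [Front, take_dropLast_or_append (by omega) (toWord_mul_letter z s),
      take_dropLast_or_append (by omega) (toWord_mul_letter z' s)]
    exact h.mono (Nat.le_succ N)

theorem Front.mk_mul {z z' : FreeGroup A} : ∀ (u : List (A × Bool)) {N : ℕ},
    Front (N + u.length) z z' → Front N (mk u * z) (mk u * z') := by
  intro u
  induction u with
  | nil => intro N h; simpa [← one_eq_mk] using h
  | cons s u ih =>
    intro N h
    have h1 : Front (N + 1) (mk u * z) (mk u * z') := ih (by
      simpa [Nat.add_assoc, Nat.add_comm 1] using h)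
    have := h1.letter_mul s
    rwa [← mul_assoc, ← mul_assoc, mul_mk] at this

theorem Front.mul_mk' {z z' : FreeGroup A} : ∀ (u : List (A × Bool)) {N : ℕ},
    Front (N + u.length) z z' → Front N (z * mk u) (z' * mk u) := by
  intro u
  induction u using List.reverseRecOn with
  | nil => intro N h; simpa [← one_eq_mk] using h
  | append_singleton u s ih =>
    intro N h
    have h1 : Front (N + 1) (z * mk u) (z' * mk u) := ih (by
      simpa [Nat.add_assoc, Nat.add_comm 1] using h)
    have := h1.mul_letter s
    rwa [mul_assoc, mul_assoc, mul_mk] at this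

theorem Front.conj {N : ℕ} {z z' : FreeGroup A} (a b : FreeGroup A)
    (h : Front (N + a.toWord.length + b.toWord.length) z z') :
    Front N (a * z * b) (a * z' * b) := by
  have h1 : Front (N + b.toWord.length) (a * z) (a * z') := by
    have := Front.mk_mul a.toWord (N := N + b.toWord.length) (by
      simpa [Nat.add_right_comm] using h)
    rwa [mk_toWord] at this
  have := h1.mul_mk' b.toWord
  rwa [mk_toWord] at this

theorem Front.one_iff {N : ℕ} {z z' : FreeGroup A} (h : Front (N + 1) z z') : z = 1 ↔ z' = 1 := by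
  constructor <;> intro e <;> subst e
  · exact (h.eq_of_short (by simp)).symm
  · exact Front.eq_of_short (N := N + 1) h.symm (by simp) |>.symm

theorem Front.head {N : ℕ} {z z' : FreeGroup A} (h : Front (N + 1) z z') :
    z.toWord.head? = z'.toWord.head? := by
  simpa [List.head?_take] using congrArg List.head? h

end

variable {d : Data} [DecidableEq d.M.A]

/-- Guessed letters in front of a path. -/
def pre : List (Fin d.n) → Path d .guess → Path d .guess
  | [], τ => τ
  | i :: v, τ => .cons _ (Edge.OK.letter i) (pre v τ)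

theorem pre_append (u v : List (Fin d.n)) (τ : Path d .guess) :
    pre (u ++ v) τ = pre u (pre v τ) := by
  induction u with
  | nil => rfl
  | cons i u ih => simp [pre, ih]

theorem clean_pre (v : List (Fin d.n)) (τ : Path d .guess) : clean d (pre v τ) ↔ clean d τ := by
  induction v with
  | nil => rfl
  | cons i v ih => exact ih

theorem guessVal_pre (v : List (Fin d.n)) (τ : Path d .guess) :
    guessVal d (pre v τ) = (v.map d.gen).prod * guessVal d τ := by
  induction v with
  | nil => simp [pre]
  | cons i v ih => simp [pre, guessVal, ih, mul_assoc]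

theorem offset_pre (v : List (Fin d.n)) (τ : Path d .guess) :
    offset d (pre v τ) = (guessed v)⁻¹ * offset d τ := by
  induction v with
  | nil => simp [pre, guessed, pw_nil]
  | cons i v ih =>
    rw [pre, offset_cons_plain _ _ _ rfl rfl, ih, guessed_cons, mul_inv_rev, mul_assoc]
    congr 1

/-- A guessing point of the tag without point predicate. -/
abbrev gpt (v : List (Fin d.n)) (τ : Path d .guess) (c : Wd d true) (g : Inner d) (h : Outer d) :
    Point d :=
  ⟨.guess, pre v τ, true, c, g, h⟩

/-- The outer coordinates fall in the same class: equal, or both outside the listed ones. -/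
def HClass (T : Set (Outer d)) (h h' : Outer d) : Prop := h = h' ∨ h ∉ T ∧ h' ∉ T

theorem HClass.mono {T T' : Set (Outer d)} {h h' : Outer d} (hh : HClass T' h h') (hT : T ⊆ T') :
    HClass T h h' :=
  hh.imp id fun ⟨a, b⟩ => ⟨fun c => a (hT c), fun c => b (hT c)⟩

/-- Membership is decided by the window of size `N` and the listed outer coordinates. -/
def WinDet (N : ℕ) (T : Set (Outer d)) (e : Set (Point d)) : Prop :=
  T.Finite ∧ ∀ v : List (Fin d.n), v.length = N → ∀ τ τ' c c' g g' h h',
    (clean d τ ↔ clean d τ') → HClass T h h' →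
    Front N (zval d (gpt v τ c g h)) (zval d (gpt v τ' c' g' h')) →
    (gpt v τ c g h ∈ e ↔ gpt v τ' c' g' h' ∈ e)

theorem WinDet.mono {N M : ℕ} {T T' : Set (Outer d)} {e : Set (Point d)} (he : WinDet N T e)
    (hNM : N ≤ M) (hT : T ⊆ T') (hT' : T'.Finite) : WinDet M T' e := by
  refine ⟨hT', fun v hv τ τ' c c' g g' h h' hc hh hf => ?_⟩
  have e1 : ∀ ρ, pre v ρ = pre (v.take N) (pre (v.drop N) ρ) := fun ρ => by
    rw [← pre_append, List.take_append_drop]
  have := he.2 (v.take N) (by simp [hv, hNM]) (pre (v.drop N) τ) (pre (v.drop N) τ')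
    c c' g g' h h' (by rw [clean_pre, clean_pre]; exact hc) (hh.mono hT)
  simp only [gpt, ← e1] at this
  exact this (hf.mono hNM)

/-- Some window decides membership. -/
def WinDef (e : Set (Point d)) : Prop := ∃ N T, WinDet N T e

theorem WinDef.combine {e f : Set (Point d)} (he : WinDef e) (hf : WinDef f) :
    ∃ N T, WinDet N T e ∧ WinDet N T f := by
  obtain ⟨N, T, he⟩ := he
  obtain ⟨M, U, hf⟩ := hf
  exact ⟨max N M, T ∪ U, he.mono (le_max_left _ _) Set.subset_union_left (he.1.union hf.1),
    hf.mono (le_max_right _ _) Set.subset_union_right (he.1.union hf.1)⟩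

theorem winDef_univ : WinDef (Set.univ : Set (Point d)) :=
  ⟨0, ∅, Set.finite_empty, fun _ _ _ _ _ _ _ _ _ _ _ _ _ => Iff.rfl⟩

theorem winDef_empty : WinDef (∅ : Set (Point d)) :=
  ⟨0, ∅, Set.finite_empty, fun _ _ _ _ _ _ _ _ _ _ _ _ _ => Iff.rfl⟩

theorem WinDef.inter {e f : Set (Point d)} (he : WinDef e) (hf : WinDef f) : WinDef (e ∩ f) := by
  obtain ⟨N, T, he, hf⟩ := he.combine hf
  exact ⟨N, T, he.1, fun v hv τ τ' c c' g g' h h' hc hh hw => and_congr
    (he.2 v hv τ τ' c c' g g' h h' hc hh hw) (hf.2 v hv τ τ' c c' g g' h h' hc hh hw)⟩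

theorem WinDef.compl {e : Set (Point d)} (he : WinDef e) : WinDef eᶜ := by
  obtain ⟨N, T, he⟩ := he
  exact ⟨N, T, he.1, fun v hv τ τ' c c' g g' h h' hc hh hw =>
    not_congr (he.2 v hv τ τ' c c' g g' h h' hc hh hw)⟩

theorem WinDef.sdiff {e f : Set (Point d)} (he : WinDef e) (hf : WinDef f) : WinDef (e \ f) :=
  he.inter hf.compl

theorem WinDef.union {e f : Set (Point d)} (he : WinDef e) (hf : WinDef f) : WinDef (e ∪ f) := by
  rw [← compl_compl (e ∪ f), Set.compl_union]
  exact (he.compl.inter hf.compl).compl

theorem winDef_base (B : Base d) : WinDef B.set := by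
  refine ⟨1, {1}, Set.finite_singleton _, fun v hv τ τ' c c' g g' h h' hc hh hw => ?_⟩
  obtain ⟨s, b, p⟩ := B
  refine and_congr (and_congr Iff.rfl Iff.rfl) ?_
  cases p with
  | full => exact Iff.rfl
  | hOne =>
    rcases hh with rfl | ⟨h1, h2⟩
    · exact Iff.rfl
    · exact iff_of_false h1 h2
  | zOne => exact hw.one_iff (N := 0)
  | zFront t =>
    show _ = some t ↔ _ = some t
    rw [hw.head (N := 0)]
  | clean =>
    exact and_congr Iff.rfl (by rw [clean_pre, clean_pre]; exact hc)
  | gOne => exact iff_of_false (fun x => Bool.noConfusion x.1) (fun x => Bool.noConfusion x.1)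
  | kSet => exact iff_of_false (fun x => Bool.noConfusion x.1) (fun x => Bool.noConfusion x.1)
  | gHOne =>
    exact iff_of_false (fun x => Bool.noConfusion x.1.1) (fun x => Bool.noConfusion x.1.1)

theorem WinDef.gT {e : Set (Point d)} (he : WinDef e) (m : Inner d) :
    WinDef (gimg (gT m) e) := by
  obtain ⟨N, T, he⟩ := he
  refine ⟨N, T, he.1, fun v hv τ τ' c c' g g' h h' hc hh hw => ?_⟩
  rw [mem_gimg_gT, mem_gimg_gT]
  exact he.2 v hv τ τ' c c' _ _ h h' hc hh hw

theorem WinDef.hT {e : Set (Point d)} (he : WinDef e) (k : Outer d) :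
    WinDef (gimg (hT k) e) := by
  obtain ⟨N, T, he⟩ := he
  refine ⟨N + k.2.1.toWord.length + k.2.2⁻¹.toWord.length, (· * k) '' T, he.1.image _,
    fun v hv τ τ' c c' g g' h h' hc hh hw => ?_⟩
  rw [mem_gimg_hT, mem_gimg_hT]
  have e1 : ∀ ρ, pre v ρ = pre (v.take N) (pre (v.drop N) ρ) := fun ρ => by
    rw [← pre_append, List.take_append_drop]
  have := he.2 (v.take N) (by simp [hv, Nat.add_assoc]) (pre (v.drop N) τ) (pre (v.drop N) τ')
    c c' g g' (h * k⁻¹) (h' * k⁻¹) (by rw [clean_pre, clean_pre]; exact hc)
  simp only [gpt, ← e1] at this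
  refine this ?_ ?_
  · rcases hh with rfl | ⟨h1, h2⟩
    · exact Or.inl rfl
    · exact Or.inr ⟨fun x => h1 ⟨_, x, by simp⟩, fun x => h2 ⟨_, x, by simp⟩⟩
  · have hw' := Front.conj (N := N) k.2.1 k.2.2⁻¹ hw
    simpa [zval, mul_assoc] using hw'

theorem mem_gimg_edgeG_letter {e : Edge d} (he : e.OK) (X : Set (Point d)) (i : Fin d.n)
    (σ : Path d .guess) (c : Wd d true) (g : Inner d) (h : Outer d) :
    (⟨.guess, .cons _ (Edge.OK.letter i) σ, true, c, g, h⟩ : Point d) ∈ gimg (edgeG e he) X ↔
      e = letterE i ∧ (⟨.guess, σ, true, c, g,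
        ((1, (letterE i).pval, (letterE i).qval) : Outer d)⁻¹ * h⟩ : Point d) ∈ X := by
  constructor
  · rintro ⟨y, hy, ρ, b, w, g', h', e1, e2⟩
    simp only at e1 e2
    have hE := congrArg (fun x : Point d => x.σ.edges) e2
    simp only [Path.edges, List.cons.injEq] at hE
    obtain ⟨rfl, hρ⟩ := hE
    obtain rfl : σ = ρ := Path.eq_of_edges hρ
    simp only [Point.mk.injEq, heq_eq_eq] at e2
    obtain ⟨-, -, rfl, h2, rfl, rfl⟩ := e2
    obtain rfl := eq_of_heq h2
    refine ⟨rfl, ?_⟩
    rw [e1] at hy
    simp only [letterE, inv_mul_cancel_left]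
    exact hy
  · rintro ⟨rfl, hx⟩
    refine ⟨_, hx, σ, true, c, g, _, rfl, ?_⟩
    simp [letterE, ← mul_assoc]

theorem zval_shift (i : Fin d.n) (σ : Path d .guess) (c : Wd d true) (g : Inner d) (h : Outer d) :
    zval d (⟨.guess, σ, true, c, g,
        ((1, (letterE i).pval, (letterE i).qval) : Outer d)⁻¹ * h⟩ : Point d) =
      zval d (⟨.guess, .cons _ (Edge.OK.letter i) σ, true, c, g, h⟩ : Point d) := by
  simp only [zval, offset, letterE, Prod.snd_mul, Prod.fst_mul, Prod.snd_inv, Prod.fst_inv]
  group

theorem WinDef.edge {X : Set (Point d)} (hX : WinDef X) (e : Edge d) (he : e.OK) :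
    WinDef (gimg (edgeG e he) X) := by
  obtain ⟨N, T, hX⟩ := hX
  refine ⟨N + 1, ((1, e.pval, e.qval) * ·) '' T, hX.1.image _,
    fun v hv τ τ' c c' g g' h h' hc hh hw => ?_⟩
  obtain ⟨i, u, rfl⟩ : ∃ i u, v = i :: u := by
    cases v with
    | nil => simp at hv
    | cons i u => exact ⟨i, u, rfl⟩
  simp only [gpt, pre, mem_gimg_edgeG_letter]
  refine and_congr_right fun hi => ?_
  subst hi
  refine hX.2 u (by simpa using hv) τ τ' c c' g g' _ _ hc ?_ ?_
  · rcases hh with rfl | ⟨h1, h2⟩
    · exact Or.inl rfl
    · exact Or.inr ⟨fun x => h1 ⟨_, x, mul_inv_cancel_left _ _⟩,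
        fun x => h2 ⟨_, x, mul_inv_cancel_left _ _⟩⟩
  · rw [gpt, gpt, zval_shift i, zval_shift i]
    exact hw.mono (Nat.le_succ N)

theorem winDef_push (p : Inst.Push) (A : Set (Point d)) : WinDef (gimg p.graph A) := by
  refine ⟨0, ∅, Set.finite_empty, fun v _ τ τ' c c' g g' h h' _ _ _ => ?_⟩
  have key : ∀ ρ (c : Wd d true) g h, gpt v ρ c g h ∉ gimg p.graph A := by
    rintro ρ c g h ⟨y, -, hy⟩
    have : (gpt v ρ c g h).st = .fin := by
      cases p with
      | theta => exact congrArg Point.st hy
      | omC => obtain ⟨_, _, _, _, _, -, hy⟩ := hy; exact congrArg Point.st hy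
      | omD => obtain ⟨_, _, _, _, _, -, hy⟩ := hy; exact congrArg Point.st hy
      | omK => obtain ⟨_, _, _, _, -, hy⟩ := hy; exact congrArg Point.st hy
      | tMap => obtain ⟨_, _, -, hy⟩ := hy; exact congrArg Point.st hy
    simp at this
  exact iff_of_false (key _ _ _ _) (key _ _ _ _)

theorem WinDef.pathImg {X : Set (Point d)} (hX : WinDef X) (π : List (OEdge d)) :
    WinDef (pathImg π X) := by
  induction π with
  | nil => exact hX
  | cons e π ih => exact ih.edge e.1 e.2

/-- Every atom is decided by a window. -/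
theorem winDef_atom (a : Atom d) : WinDef a.set := by
  cases a with
  | base π k m B => exact (((winDef_base B).gT m).hT k).pathImg π
  | push π k m p a => exact (((winDef_push p _).gT m).hT k).pathImg π

/-- Every definable set is decided by a window, when the predicates are atoms. -/
theorem winDef_of_def {D : Calc.Setup (Point d)} (hset : ∀ k, ∃ a : Atom d, D.set k = a.set)
    {e : Set (Point d)} (he : D.Def e) : WinDef e := by
  obtain ⟨t, rfl⟩ := he
  induction t with
  | full => exact winDef_univ
  | var k =>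
    obtain ⟨a, ha⟩ := hset k
    show WinDef (D.set k)
    rw [ha]
    exact winDef_atom a
  | inter a b iha ihb => exact iha.inter ihb
  | diff a b iha ihb => exact iha.sdiff ihb

end Vale.Agent.P193.Core.Loops
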