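import Vale.Agent.P193.Full.Core.Junk
import Vale.Agent.P193.Full.Core.Loops.Window

/-! A nontrivial mixed word in the guessed value that vanishes on a set decided by a window has
room only at clean certificates with a short seen offset, where the guessed value is constant. -/

namespace Vale.Agent.P193.Core.Loops

open FreeGroup Facts Inst

set_option linter.unusedSectionVars false

/-- The value of a mixed word at an element. -/
def mev {Γ : Type} [Group Γ] (u : Γ) : Monoid.Coprod Γ (FreeGroup Unit) →* Γ :=
  Monoid.Coprod.lift (MonoidHom.id Γ) (FreeGroup.lift fun _ => u)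

section
variable {A : Type} [DecidableEq A]

/-- The number of negative letters. -/
def negs (x : FreeGroup A) : ℕ := x.toWord.countP fun s => !s.2

theorem negs_mul (x y : FreeGroup A) : negs (x * y) ≤ negs x + negs y := by
  have := (FreeGroup.toWord_mul_sublist x y).countP_le (p := fun s => !s.2)
  simpa [negs, List.countP_append] using this

/-- A long negative tail can follow the first letters of any element. -/
theorem exists_negative_front (a b : A) (hab : a ≠ b) (z : FreeGroup A) (N M : ℕ) :
    ∃ z' : FreeGroup A, (z'.toWord.take N = z.toWord.take N ∨ z.toWord.length < N) ∧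
      M ≤ negs z' := by
  obtain ⟨c, hc⟩ : ∃ c, (z.toWord.take N).getLast? ≠ some (c, true) := by
    by_cases h : (z.toWord.take N).getLast? = some (a, true)
    · exact ⟨b, by rw [h]; simpa using hab⟩
    · exact ⟨a, h⟩
  have hr : FreeGroup.IsReduced (z.toWord.take N ++ List.replicate M (c, false)) := by
    refine List.isChain_append.mpr ⟨?_, ?_, fun p hp q hq => ?_⟩
    · exact List.IsChain.take (isReduced_toWord (x := z)) N
    · exact List.isChain_replicate_of_rel M fun _ => rfl
    · have hq' : q = (c, false) := List.eq_of_mem_replicate (List.mem_of_mem_head? hq)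
      subst hq'
      obtain ⟨p1, p2⟩ := p
      intro h
      simp at h
      subst h
      cases p2
      · rfl
      · exact absurd hp hc
  refine ⟨mk (z.toWord.take N ++ List.replicate M (c, false)), ?_, ?_⟩
  · rw [toWord_mk_of_reduced hr]
    by_cases hz : z.toWord.length < N
    · exact Or.inr hz
    · left
      rw [List.take_append_of_le_length (by simp; omega), List.take_take, Nat.min_self]
  · rw [negs, toWord_mk_of_reduced hr, List.countP_append]
    simp [List.countP_replicate]

theorem infinite_free (a : A) : Infinite (FreeGroup A) :=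
  Infinite.of_injective (fun k : ℕ => mk (List.replicate k (a, true))) fun k l h => by
    have hr : ∀ k : ℕ, FreeGroup.IsReduced (List.replicate k (a, true)) := fun k =>
      List.isChain_replicate_of_rel k fun _ => rfl
    have := congrArg (List.length ∘ FreeGroup.toWord) h
    simpa [toWord_mk_of_reduced (hr k), toWord_mk_of_reduced (hr l)] using this

end

variable {d : Data} [DecidableEq d.M.A]

theorem negs_legit (L : List (Fin d.n)) (b : Bool) : negs (legit L b) = 0 := by
  simp [negs, toWord_legit, par, List.countP_map, Function.comp_def]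

theorem zval_gpt (v : List (Fin d.n)) (τ : Path d .guess) (c : Wd d true) (g : Inner d)
    (h : Outer d) :
    zval d (gpt v τ c g h) = h.2.1⁻¹ * ((guessed v)⁻¹ * offset d τ) * h.2.2 := by
  simp [zval, offset_pre]

/-- A mixed word that vanishes at the guessed values of a set decided by a window is trivial,
unless the points are clean certificates with a listed outer coordinate and a short offset. -/
theorem window_small (hG : Good d) {Γ : Type} [Group Γ] (hmif : MixedIdentityFree Γ)
    (π : Inner d →* Γ) (hπ : Function.Surjective π) {N : ℕ} {T : Set (Outer d)}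
    {e : Set (Point d)} (he : WinDet N T e) {w : Monoid.Coprod Γ (FreeGroup Unit)} (hw : w ≠ 1)
    (hvan : ∀ v, v.length = N → ∀ τ c g h, gpt v τ c g h ∈ e →
      mev (π (guessVal d (pre v τ))) w = 1)
    {v : List (Fin d.n)} (hv : v.length = N) {τ : Path d .guess} {c : Wd d true} {g : Inner d}
    {h : Outer d} (hx : gpt v τ c g h ∈ e) :
    clean d τ ∧ h ∈ T ∧ (zval d (gpt v τ c g h)).toWord.length < N ∧
      ∃ L, offset d τ = legit L true := by
  classical
  let p := π (v.map d.gen).prod
  -- a window-equal point for every guessed value outside a finite set gives a contradiction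
  have kill : ∀ E : Finset Γ, (∀ m : Inner d, π m ∉ E → ∃ τ' h', guessVal d τ' = m ∧
      gpt v τ' c g h' ∈ e) → False := by
    intro E hE
    obtain ⟨u, hu, hne⟩ := hmif w hw (E.image (p * ·))
    obtain ⟨m, hm⟩ := hπ (p⁻¹ * u)
    have hm' : π m ∉ E := fun hc => hu (Finset.mem_image.2 ⟨_, hc, by simp [hm]⟩)
    obtain ⟨τ', h', hg, hmem⟩ := hE m hm'
    refine hne ?_
    have := hvan v hv τ' c g h' hmem
    rwa [guessVal_pre, hg, _root_.map_mul, hm, mul_inv_cancel_left] at this
  have hclean : clean d τ := by
    by_contra hc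
    refine kill ∅ fun m _ => ?_
    obtain ⟨τ', h1, h2, h3, -⟩ := junk_exists hG (offset d τ) m 0
    refine ⟨τ', h, h3, (he.2 v hv τ τ' c c g g h h (iff_of_false hc h1) (Or.inl rfl) ?_).1 hx⟩
    rw [Front, zval_gpt, zval_gpt, h2]
  obtain ⟨L, hL⟩ : ∃ L, offset d τ = legit L true := by
    by_contra hne
    push Not at hne
    by_cases hf : ∃ L, offset d τ = legit L false
    · obtain ⟨L, hL⟩ := hf
      refine kill {π ((L.reverse.map d.gen).prod)⁻¹} fun m hm => ?_
      obtain ⟨τ', h1, h2, h3, -⟩ := legit_exists hG L false m (by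
        refine iff_of_false (fun h1 => hm ?_) (by simp)
        rw [eq_inv_of_mul_eq_one_right h1]
        exact Finset.mem_singleton_self _) 0
      refine ⟨τ', h, h3, (he.2 v hv τ τ' c c g g h h (iff_of_true hclean h1) (Or.inl rfl) ?_).1 hx⟩
      rw [Front, zval_gpt, zval_gpt, h2, hL]
    · push Not at hf
      refine kill ∅ fun m _ => ?_
      obtain ⟨τ', h1, h2, h3, -⟩ := nonlegit_exists hG (offset d τ)
        (fun L b => by cases b <;> [exact hf L; exact hne L]) m 0
      refine ⟨τ', h, h3, (he.2 v hv τ τ' c c g g h h (iff_of_true hclean h1) (Or.inl rfl) ?_).1 hx⟩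
      rw [Front, zval_gpt, zval_gpt, h2]
  have hT : h ∈ T := by
    by_contra hT
    obtain ⟨a, ha⟩ := (infinite_free (d.M.first, false)).exists_notMem_finset
      (he.1.toFinset.image fun t : Outer d => t.2.1)
    refine kill ∅ fun m _ => ?_
    obtain ⟨τ', h1, h2, h3, -⟩ := nonlegit_exists hG 1 (fun L b e1 => by
      simpa [toWord_legit, legitRow, par] using congrArg FreeGroup.toWord e1) m 0
    let h' : Outer d := (h.1, a, guessed v * a * zval d (gpt v τ c g h))
    have hh' : h' ∉ T := fun hc => ha (Finset.mem_image.2 ⟨h', he.1.mem_toFinset.2 hc, rfl⟩)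
    refine ⟨τ', h', h3,
      (he.2 v hv τ τ' c c g g h h' (iff_of_true hclean h1) (Or.inr ⟨hT, hh'⟩) ?_).1 hx⟩
    have e1 : zval d (gpt v τ' c g h') = zval d (gpt v τ c g h) := by
      rw [zval_gpt (τ := τ'), h2]; simp [h', mul_assoc]
    rw [Front, e1]
  refine ⟨hclean, hT, ?_, L, hL⟩
  by_contra hlong
  let P := (guessed v : FA d) * h.2.1
  let Q := h.2.2⁻¹
  obtain ⟨z', hz', hM⟩ := exists_negative_front (d.M.first, false) (d.M.first, true) (by simp)
    (zval d (gpt v τ c g h)) N (negs P⁻¹ + negs Q⁻¹ + 1)
  have hnon : ∀ L b, P * z' * Q ≠ legit L b := by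
    intro L b e1
    have e2 : z' = P⁻¹ * legit L b * Q⁻¹ := by rw [← e1]; group
    have h3 := negs_mul (P⁻¹ * legit L b) Q⁻¹
    have h4 := negs_mul P⁻¹ (legit L b)
    rw [← e2] at h3
    rw [negs_legit] at h4
    omega
  refine kill ∅ fun m _ => ?_
  obtain ⟨τ', h1, h2, h3, -⟩ := nonlegit_exists hG _ hnon m 0
  refine ⟨τ', h, h3, (he.2 v hv τ τ' c c g g h h (iff_of_true hclean h1) (Or.inl rfl) ?_).1 hx⟩
  have e1 : zval d (gpt v τ' c g h) = z' := by rw [zval_gpt, h2]; simp [P, Q, mul_assoc]
  rw [Front, e1]
  exact (hz'.resolve_right hlong).symm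

/-- At a certificate the guessed value is determined by the outer coordinate and the offset. -/
theorem guessVal_const (hG : Good d) {v : List (Fin d.n)} {τ τ' : Path d .guess}
    {c c' : Wd d true} {g g' : Inner d} {h : Outer d} (hc : clean d τ) (hc' : clean d τ')
    {L : List (Fin d.n)} (hL : offset d τ = legit L true)
    (hz : zval d (gpt v τ' c' g' h) = zval d (gpt v τ c g h)) :
    guessVal d (pre v τ') = guessVal d (pre v τ) := by
  rw [zval_gpt, zval_gpt, mul_left_inj, mul_right_inj, mul_right_inj] at hz
  have e1 := (legit_path hG τ rfl hc L true hL).2 rfl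
  have e2 := (legit_path hG τ' rfl hc' L true (hz.trans hL)).2 rfl
  rw [guessVal_pre, guessVal_pre, eq_inv_of_mul_eq_one_right e1, eq_inv_of_mul_eq_one_right e2]

/-- Every guessing path is a run of letters followed by a part with trivial guessed value. -/
theorem split_run {s : State d} (σ : Path d s) : ∀ hs : s = .guess, ∃ v : List (Fin d.n),
    ∃ ρ : Path d .guess, hs ▸ σ = pre v ρ ∧ guessVal d ρ = 1 := by
  induction σ with
  | nil => intro hs; cases hs
  | cons e he σ ih =>
    intro hs
    cases he with
    | letter j =>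
      obtain ⟨v, ρ, h1, h2⟩ := ih rfl
      exact ⟨j :: v, ρ, congrArg (Path.cons _ (Edge.OK.letter j)) h1, h2⟩
    | gjunk t => exact ⟨[], _, rfl, rfl⟩
    | reach t h => exact ⟨[], _, rfl, rfl⟩
    | exit => exact ⟨[], _, rfl, rfl⟩
    | flood src p t hf =>
      cases hf with
      | guess t => exact ⟨[], _, rfl, rfl⟩
      | bd i => cases hs
      | step i q a ha => cases hs
    | floodEnd src p t hf hp =>
      cases hf with
      | guess t => exact ⟨[], _, rfl, rfl⟩
      | bd i => cases hs
      | step i q a ha => cases hs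
    | _ => cases hs

/-- A guessing path has `N` leading letters or a guessed value spelled by fewer. -/
theorem long_or_short (σ : Path d .guess) (N : ℕ) :
    (∃ v τ, v.length = N ∧ σ = pre v τ) ∨
      ∃ v : List (Fin d.n), v.length < N ∧ guessVal d σ = (v.map d.gen).prod := by
  obtain ⟨v, ρ, h1, h2⟩ := split_run σ rfl
  change σ = _ at h1
  subst h1
  by_cases hN : v.length < N
  · exact Or.inr ⟨v, hN, by rw [guessVal_pre, h2, mul_one]⟩
  · refine Or.inl ⟨v.take N, pre (v.drop N) ρ, by simp; omega, ?_⟩
    rw [← pre_append, List.take_append_drop]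

end Vale.Agent.P193.Core.Loops
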