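import Vale.Agent.P193.Full.Core.Loops.UGroup
import Vale.Agent.P193.Full.Core.Loops.Small

/-! On a certificate with a given outer coordinate the components are congruent to translations. -/

namespace Vale.Agent.P193.Loops

variable {S ι : Type} {K : Sys S ι} {Df : Set S → Prop}
  {R : Set S → List ι → List ι → Prop} (L : Laws K Df R)

include L

/-- Cancel a common letter at the end. -/
theorem Rw.unback {e : Set S} {u v : List ι} {i : ι}
    (h : Rw K Df R e (u ++ [i]) (v ++ [i])) : Rw K Df R e u v := by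
  have key : ∀ w, e ⊆ K.dom (w ++ [i]) →
      Rw K Df R e (w ++ [i] ++ [K.inv i]) w := fun w hw => by
    have c := Rw.cancel_word L (L.wimg_df (w := w) h.df) (Sys.dom_append.1 hw).2
    have := Rw.front L h.df (Sys.dom_append.1 hw).1 c
    simpa [Sys.winv] using this
  have hb := h.back L (b := [K.inv i]) fun x hx => (key u h.left).left hx
  exact ((Rw.symm L (key u h.left)).trans L hb).trans L (key v h.right)

/-- Cancel a common letter at the front. -/
theorem Rw.unfront {e : Set S} {u v : List ι} {i j : ι} (hij : K.inv i = j) (he : Df e)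
    (hd : e ⊆ K.dom [i]) (h : Rw K Df R (K.wimg [i] e) ([j] ++ u) ([j] ++ v)) :
    Rw K Df R e u v := by
  have c : Rw K Df R e ([i] ++ [j]) [] := by
    simpa [Sys.winv, hij] using Rw.cancel_word L he hd
  have hf : Rw K Df R e ([i] ++ ([j] ++ u)) ([i] ++ ([j] ++ v)) := Rw.front L he hd h
  have key : ∀ w, e ⊆ K.dom ([i] ++ ([j] ++ w)) →
      Rw K Df R e ([i] ++ ([j] ++ w)) w := fun w hw => by
    rw [← List.append_assoc] at hw ⊢
    simpa using c.back L hw
  exact ((Rw.symm L (key u hf.left)).trans L hf).trans L (key v hf.right)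

end Vale.Agent.P193.Loops

namespace Vale.Agent.P193.Core.Loops

open Vale.Agent.P193.Loops Facts

set_option linter.unusedSectionVars false

variable {d : Data} [DecidableEq d.M.A] {hG : Good d}

/-- The edge that guesses a letter, as a letter of the alphabet. -/
def edgeL (i : Fin d.n) : Letter d := fw (.edge ⟨_, Edge.OK.letter i⟩)

/-- The same, backwards. -/
def edgeB (i : Fin d.n) : Letter d := bw (.edge ⟨_, Edge.OK.letter i⟩)

/-- The outer element of a guessed letter. -/
def letElt (i : Fin d.n) : Outer d := edgeElt (letterE i)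

theorem run_edgeL (i : Fin d.n) (x y : Point d) :
    (x, y) ∈ (sys hG).g (edgeL i) ↔ ∃ σ : Path d .guess, ∃ b w g h, x = ⟨.guess, σ, b, w, g, h⟩ ∧
      y = ⟨.guess, .cons _ (Edge.OK.letter i) σ, b, w, g, letElt i * h⟩ := Iff.rfl

/-- What a component becomes when moved back over a guessed letter. -/
noncomputable def backW (hG : Good d) (i : Fin d.n) (p : Fin 3 × Bool) : List (Letter d) :=
  if p.2 then innerW (iw hG (proj p.1 (d.gen i))) ++ [uL p]
  else [uL p] ++ innerW (iw hG ((proj p.1 (d.gen i))⁻¹))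

theorem sub_letter_u (i : Fin d.n) (p : Fin 3 × Bool) :
    Sub hG [edgeL i, uL p] (backW hG i p ++ [edgeL i]) := by
  rintro x y ⟨z, hz, z', hz', rfl⟩
  obtain ⟨σ, b, w, g, h, rfl, rfl⟩ := (run_edgeL i _ _).1 hz
  obtain ⟨-, hb, rfl⟩ := (run_u p _ _).1 hz'
  refine Sys.run_append.2 ⟨(⟨.guess, σ, b, w, g * uval p (d.gen i * guessVal d σ), h⟩ : Point d),
    ?_, Sys.run_singleton.2 ((run_edgeL i _ _).2 ⟨σ, b, w, _, h, rfl, by simp [guessVal]⟩)⟩
  obtain ⟨j, _ | _⟩ := p
  · simp only [backW, Bool.false_eq_true, if_false]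
    refine Sys.run_append.2 ⟨_, Sys.run_singleton.2 ((run_u _ _ _).2 ⟨rfl, hb, rfl⟩),
      (run_innerW hG _ _ _).2 ?_⟩
    simp [uval, iw_prod, mul_assoc, show proj j (d.gen i * guessVal d σ) =
      proj j (d.gen i) * proj j (guessVal d σ) from (projH j).map_mul _ _]
  · simp only [backW, if_true]
    refine Sys.run_append.2 ⟨_, (run_innerW hG _ _ _).2 rfl,
      Sys.run_singleton.2 ((run_u _ _ _).2 ⟨rfl, hb, ?_⟩)⟩
    simp [uval, iw_prod, mul_assoc, show proj j (d.gen i * guessVal d σ) =
      proj j (d.gen i) * proj j (guessVal d σ) from (projH j).map_mul _ _]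

theorem backW_length (i : Fin d.n) (p : Fin 3 × Bool) :
    (backW hG i p ++ [edgeL i]).length ≤ bound hG := by
  have h1 := iw_length (hG := hG) (m := proj p.1 (d.gen i)) (Or.inl ⟨i, p.1, Or.inl rfl⟩)
  have h2 := iw_length (hG := hG) (m := (proj p.1 (d.gen i))⁻¹) (Or.inl ⟨i, p.1, Or.inr rfl⟩)
  unfold backW
  split <;> simp [innerW] <;> omega

/-- A certificate below guessed letters with a given outer coordinate. -/
def CertAt (v : List (Fin d.n)) (c : Outer d) (L : List (Fin d.n)) (x : Point d) : Prop :=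
  ∃ τ w g, x = gpt v τ w g c ∧ clean d τ ∧ offset d τ = legit L true

theorem certAt_flat {v : List (Fin d.n)} {c : Outer d} {L : List (Fin d.n)} {x : Point d}
    (h : CertAt v c L x) :
    (x.st = .guess ∧ x.tag = true) ∧ ∀ g', CertAt v c L ({ x with g := g' } : Point d) := by
  obtain ⟨τ, w, g, rfl, h1, h2⟩ := h
  exact ⟨⟨rfl, rfl⟩, fun g' => ⟨τ, w, g', rfl, h1, h2⟩⟩

omit [DecidableEq d.M.A] in
theorem innerW_append (a b : List (Fin d.n)) : innerW (a ++ b) = innerW a ++ innerW b :=
  List.map_append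

variable {Df : Set (Point d) → Prop}
  {R : Set (Point d) → List (Letter d) → List (Letter d) → Prop}

/-- The components are congruent to translations on sets satisfying the predicate. -/
def IsConst (hG : Good d) (Df : Set (Point d) → Prop)
    (R : Set (Point d) → List (Letter d) → List (Letter d) → Prop) (Q : Point d → Prop)
    (a : Inner d) : Prop :=
  ∀ e, Df e → (∀ x ∈ e, Q x) → ∀ j : Fin 3,
    Rw (sys hG) Df R e [uL (j, true)] (innerW (iw hG (proj j a)))

variable (C : Ctx hG Df R)

include C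

/-- The edge of a letter moves past inner words. -/
theorem edge_past (i : Fin d.n) {e : Set (Point d)} (he : Df e) (l : List (Fin d.n))
    (hd : e ⊆ (sys hG).dom (innerW l ++ [edgeL i])) :
    Rw (sys hG) Df R e (innerW l ++ [edgeL i]) ([edgeL i] ++ innerW l) :=
  innerW_past C _ (fun k => sub_inner_edge k _) he l hd

/-- One guessed letter on top of a certificate. -/
theorem IsConst.down (i : Fin d.n) {v : List (Fin d.n)} {c : Outer d} {L : List (Fin d.n)}
    {a : Inner d} (h : IsConst hG Df R (CertAt v c L) a) :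
    IsConst hG Df R (CertAt (i :: v) (letElt i * c) L) (d.gen i * a) := by
  intro e he hs j
  have hd : e ⊆ (sys hG).dom [edgeB i] := fun x hx => by
    obtain ⟨τ, w, g, rfl, -, -⟩ := hs x hx
    exact ⟨_, Sys.run_singleton.2 (show (gpt v τ w g c, _) ∈ (sys hG).g (edgeL i) from
      (run_edgeL i _ _).2 ⟨_, _, _, _, _, rfl, rfl⟩)⟩
  refine Rw.unfront C.laws (i := edgeB i) (j := edgeL i) rfl he hd ?_
  set e' := (sys hG).wimg [edgeB i] e with he'
  have he'd : Df e' := C.laws.wimg_df he
  have hs' : ∀ x ∈ e', CertAt v c L x := by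
    rintro y ⟨x, hx, hxy⟩
    obtain ⟨τ, w, g, rfl, h1, h2⟩ := hs x hx
    have hb : (gpt v τ w g c, gpt (i :: v) τ w g (letElt i * c)) ∈ (sys hG).g (edgeL i) :=
      (run_edgeL i _ _).2 ⟨_, _, _, _, _, rfl, rfl⟩
    have := ((sys hG).pb (edgeB i)).1 _ _ _ (Sys.run_singleton.1 hxy) hb
    exact ⟨τ, w, g, this, h1, h2⟩
  have hflat : ∀ l : List (Fin d.n), ∀ x ∈ (sys hG).wimg (innerW l) e', CertAt v c L x := by
    rintro l x ⟨p, hp, hpx⟩
    rw [run_innerW] at hpx
    rw [hpx]
    exact (certAt_flat (hs' p hp)).2 _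
  set cw := iw hG (proj j (d.gen i)) with hcw
  have hd2 : e' ⊆ (sys hG).dom [edgeL i, uL (j, true)] := fun x hx => by
    obtain ⟨τ, w, g, rfl, -, -⟩ := hs' x hx
    exact ⟨_, Sys.run_append (u := [edgeL i]).2 ⟨_, Sys.run_singleton.2
      ((run_edgeL i _ _).2 ⟨_, _, _, _, _, rfl, rfl⟩),
      Sys.run_singleton.2 ((run_u _ _ _).2 ⟨rfl, rfl, rfl⟩)⟩⟩
  have r1 := C.use (small_le (by simp)) (backW_length i (j, true)) (sub_letter_u i (j, true))
    he'd hd2
  simp only [backW, if_true, List.append_assoc, ← hcw] at r1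
  have r2 : Rw (sys hG) Df R e' (innerW cw ++ ([uL (j, true)] ++ [edgeL i]))
      (innerW cw ++ (innerW (iw hG (proj j a)) ++ [edgeL i])) :=
    Rw.front C.laws he'd (dom_innerW _ _)
      ((h _ (C.laws.wimg_df he'd) (hflat cw) j).back C.laws (Sys.dom_append.1 r1.right).2)
  have r12 := r1.trans C.laws r2
  have r3 : Rw (sys hG) Df R e' ((innerW cw ++ innerW (iw hG (proj j a))) ++ [edgeL i])
      (innerW (iw hG (proj j (d.gen i * a))) ++ [edgeL i]) := by
    refine (Rw.trans C.laws ?_ (inner_eq C (a := cw ++ iw hG (proj j a)) ?_ he'd)).back C.laws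
      (by rw [List.append_assoc]; exact r12.right)
    · rw [← innerW_append]
      exact Rw.refl C.laws he'd (dom_innerW _ _)
    · simp [hcw, iw_prod, show proj j (d.gen i * a) = proj j (d.gen i) * proj j a from
        (projH j).map_mul _ _]
  rw [List.append_assoc] at r3
  have r123 := r12.trans C.laws r3
  exact r123.trans C.laws (edge_past C i he'd _ r123.right)

/-- A certificate one letter longer. -/
theorem IsConst.up (i : Fin d.n) {c : Outer d} {L : List (Fin d.n)} {a : Inner d}
    (h : IsConst hG Df R (CertAt [] (letElt i * c) L) (d.gen i * a)) :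
    IsConst hG Df R (CertAt [] c (i :: L)) a := by
  intro e he hs j
  set cw := iw hG (proj j (d.gen i)) with hcw
  set A := iw hG (proj j (d.gen i * a)) with hA
  set ci := iw hG ((proj j (d.gen i))⁻¹) with hci
  have hflat : ∀ l : List (Fin d.n), ∀ x ∈ (sys hG).wimg (innerW l) e,
      CertAt [] c (i :: L) x := by
    rintro l x ⟨p, hp, hpx⟩
    rw [run_innerW] at hpx
    rw [hpx]
    exact (certAt_flat (hs p hp)).2 _
  -- the component at the top, moved down over the letter
  have key : ∀ e, Df e → (∀ x ∈ e, CertAt [] c (i :: L) x) →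
      Rw (sys hG) Df R e (innerW cw ++ [uL (j, true)]) (innerW A) := by
    intro e he hs
    have hd : e ⊆ (sys hG).dom [edgeL i] := fun x hx => by
      obtain ⟨τ, w, g, rfl, -, -⟩ := hs x hx
      exact ⟨_, Sys.run_singleton.2 ((run_edgeL i _ _).2 ⟨_, _, _, _, _, rfl, rfl⟩)⟩
    have himg : ∀ y ∈ (sys hG).wimg [edgeL i] e, CertAt [] (letElt i * c) L y := by
      rintro y ⟨x, hx, hxy⟩
      obtain ⟨τ, w, g, rfl, h1, h2⟩ := hs x hx
      refine ⟨pre [i] τ, w, g, ((sys hG).pb (edgeL i)).1 _ _ _ (Sys.run_singleton.1 hxy)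
        ((run_edgeL i _ _).2 ⟨_, _, _, _, _, rfl, rfl⟩), (clean_pre _ _).2 h1, ?_⟩
      rw [offset_pre, h2, legit_cons, guessed_cons, guessed, List.reverse_nil, List.map_nil,
        pw_nil, one_mul, inv_mul_cancel_left]
    have r0 : Rw (sys hG) Df R e ([edgeL i] ++ [uL (j, true)]) ([edgeL i] ++ innerW A) :=
      Rw.front C.laws he hd (h _ (C.laws.wimg_df he) himg j)
    have r1 := C.use (small_le (by simp)) (backW_length i (j, true)) (sub_letter_u i (j, true))
      he r0.left
    simp only [backW, if_true, ← hcw] at r1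
    have hd' : e ⊆ (sys hG).dom (innerW A ++ [edgeL i]) :=
      Sys.dom_append.2 ⟨dom_innerW _ _, by
        rintro y ⟨p, hp, hpy⟩
        rw [run_innerW] at hpy
        subst hpy
        obtain ⟨τ, w, g, rfl, -, -⟩ := hs p hp
        exact ⟨_, Sys.run_singleton.2 ((run_edgeL i _ _).2 ⟨_, _, _, _, _, rfl, rfl⟩)⟩⟩
    exact Rw.unback C.laws ((Rw.symm C.laws r1).trans C.laws
      (r0.trans C.laws (Rw.symm C.laws (edge_past C i he _ hd'))))
  have hu : (sys hG).wimg (innerW (ci ++ cw)) e ⊆ (sys hG).dom [uL (j, true)] := fun x hx =>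
    ⟨_, Sys.run_singleton.2 ((run_u _ _ _).2
      ⟨(certAt_flat (hflat _ x hx)).1.1, (certAt_flat (hflat _ x hx)).1.2, rfl⟩)⟩
  have r4 : Rw (sys hG) Df R e (innerW (ci ++ cw) ++ [uL (j, true)]) ([] ++ [uL (j, true)]) :=
    (law_inner C (by simp [hci, hcw, iw_prod]) he).back C.laws
      (Sys.dom_append.2 ⟨dom_innerW _ _, hu⟩)
  have r5 : Rw (sys hG) Df R e (innerW ci ++ (innerW cw ++ [uL (j, true)]))
      (innerW ci ++ innerW A) :=
    Rw.front C.laws he (dom_innerW _ _) (key _ (C.laws.wimg_df he) (hflat ci))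
  rw [List.nil_append, innerW_append, List.append_assoc] at r4
  refine ((Rw.symm C.laws r4).trans C.laws r5).trans C.laws ?_
  rw [← innerW_append]
  refine inner_eq C ?_ he
  simp [hci, hA, iw_prod, show proj j (d.gen i * a) = proj j (d.gen i) * proj j a from
    (projH j).map_mul _ _]

/-- The shortest certificate. -/
theorem const_nil (c : Outer d) : IsConst hG Df R (CertAt [] c []) 1 := by
  intro e he hs j
  let t : List (OGen d × Bool) := ow hG (c⁻¹ * cTrue)
  have e1 : outerW t = t.flatMap fun a => [(Atom.outer a.1, a.2)] := by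
    rw [outerW, ← List.flatMap_pure_eq_map]; rfl
  refine Rw.trans C.laws (Rw.descend C.laws (a := outerW t) (u' := [uL (j, true)])
    (dom_outerW t e) ?_ ?_) ?_
  · rw [e1]
    refine Rw.slide' C.laws (a := [uL (j, true)]) (fun a : OGen d × Bool => [(Atom.outer a.1, a.2)])
      (fun a : OGen d × Bool => [(Atom.outer a.1, a.2)])
      (fun a e' he' hde' => C.use (small_le (by simp)) (small_le (by simp))
        (sub_u_outer (j, true) a) he' hde') he t ?_
    rw [← e1]
    intro x hx
    exact ⟨_, Sys.run_append.2 ⟨_, Sys.run_singleton.2 ((run_u _ _ _).2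
      ⟨(certAt_flat (hs x hx)).1.1, (certAt_flat (hs x hx)).1.2, rfl⟩),
      (run_outerW hG t _ _).2 rfl⟩⟩
  · refine rule1 C _ (C.laws.wimg_df he) ?_
    rintro y ⟨x, hx, hxy⟩
    obtain ⟨τ, w, g, rfl, h1, h2⟩ := hs x hx
    rw [run_outerW, ow_prod] at hxy
    simp only [mul_inv_cancel_left] at hxy
    subst hxy
    refine ⟨rfl, ⟨rfl, (clean_pre [] τ).2 h1⟩, ?_, rfl⟩
    show (cTrue (d := d)).2.1⁻¹ * offset d τ * (cTrue (d := d)).2.2 = 1
    rw [h2, cTrue_eq, show (cTrue (d := d)).2.2 = 1 from rfl, mul_one, inv_mul_cancel]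
  · exact Rw.symm C.laws (law_inner C (by simp [iw_prod, proj_one]) he)

/-- The components are congruent to translations at every certificate below guessed letters. -/
theorem const_cert : ∀ (v : List (Fin d.n)) (c : Outer d) (L : List (Fin d.n)),
    IsConst hG Df R (CertAt v c L) ((v.map d.gen).prod * ((L.reverse.map d.gen).prod)⁻¹) := by
  intro v
  induction v with
  | nil =>
    intro c L
    induction L generalizing c with
    | nil => simpa using const_nil C c
    | cons i L ih =>
      refine IsConst.up C i ?_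
      simpa [mul_assoc] using ih (letElt i * c)
  | cons i v ih =>
    intro c L
    have := IsConst.down C i (ih ((letElt i)⁻¹ * c) L)
    simpa [mul_assoc] using this

end Vale.Agent.P193.Core.Loops
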