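import Vale.Agent.P193.Full.Core.Loops.Small

/-! The certificates left by a vanishing mixed word are finitely many. -/

namespace Vale.Agent.P193.Core.Loops

open FreeGroup Facts Inst

set_option linter.unusedSectionVars false

variable {d : Data} [DecidableEq d.M.A]

/-- A positive certificate is determined by its offset. -/
theorem legit_true_injective {L L' : List (Fin d.n)} (h : legit L true = legit L' true) :
    L = L' := by
  have := pw_inj h
  simp only [legitRow, List.append_cancel_right_eq] at this
  exact List.map_injective_iff.2 d.M.letter_inj this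

/-- Under the hypotheses of `window_small`, the long points of the set lie at finitely many
certificates: a run of letters, an outer coordinate and a certified word. -/
theorem window_certificates (hG : Good d) {Γ : Type} [Group Γ] (hmif : MixedIdentityFree Γ)
    (π : Inner d →* Γ) (hπ : Function.Surjective π) {N : ℕ} {T : Set (Outer d)}
    {e : Set (Point d)} (he : WinDet N T e) {w : Monoid.Coprod Γ (FreeGroup Unit)} (hw : w ≠ 1)
    (hvan : ∀ v, v.length = N → ∀ τ c g h, gpt v τ c g h ∈ e →
      mev (π (guessVal d (pre v τ))) w = 1) :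
    ∃ P : Finset (List (Fin d.n) × Outer d × List (Fin d.n)),
      ∀ v τ c g h, v.length = N → gpt v τ c g h ∈ e →
        clean d τ ∧ ∃ L, offset d τ = legit L true ∧ (v, h, L) ∈ P := by
  classical
  have := @Finite.of_fintype _ d.M.fintypeA
  let C : Set (List (Fin d.n) × Outer d × List (Fin d.n)) :=
    {x | x.1.length = N ∧ x.2.1 ∈ T ∧
      (x.2.1.2.1⁻¹ * ((guessed x.1)⁻¹ * legit x.2.2 true) * x.2.1.2.2).toWord.length < N}
  have hz : {z : FA d | z.toWord.length < N}.Finite :=
    ((List.finite_length_le (Ltr d × Bool) N).image mk).subset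
      fun z hz => ⟨z.toWord, le_of_lt (α := ℕ) hz, mk_toWord⟩
  have hC : C.Finite := by
    refine Set.Finite.of_finite_image (f := fun x : List (Fin d.n) × Outer d × List (Fin d.n) =>
      (x.1, x.2.1, x.2.1.2.1⁻¹ * ((guessed x.1)⁻¹ * legit x.2.2 true) * x.2.1.2.2)) ?_ ?_
    · refine ((List.finite_length_le (Fin d.n) N).prod (he.1.prod hz)).subset ?_
      rintro _ ⟨x, ⟨h1, h2, h3⟩, rfl⟩
      exact ⟨h1.le, h2, h3⟩
    · rintro ⟨v, h, L⟩ _ ⟨v', h', L'⟩ _ e1
      simp only [Prod.mk.injEq] at e1
      obtain ⟨rfl, rfl, e1⟩ := e1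
      rw [mul_left_inj, mul_right_inj, mul_right_inj] at e1
      rw [legit_true_injective e1]
  refine ⟨hC.toFinset, fun v τ c g h hv hx => ?_⟩
  obtain ⟨hc, hT, hlen, L, hL⟩ := window_small hG hmif π hπ he hw hvan hv hx
  refine ⟨hc, L, hL, hC.mem_toFinset.2 ⟨hv, hT, ?_⟩⟩
  rwa [zval_gpt, hL] at hlen

/-- The same for a definable set, when the predicates are atoms: some window size works. -/
theorem def_certificates (hG : Good d) {D : Calc.Setup (Point d)}
    (hset : ∀ k, ∃ a : Atom d, D.set k = a.set) {Γ : Type} [Group Γ]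
    (hmif : MixedIdentityFree Γ) (π : Inner d →* Γ) (hπ : Function.Surjective π)
    {e : Set (Point d)} (he : D.Def e) {w : Monoid.Coprod Γ (FreeGroup Unit)} (hw : w ≠ 1)
    (hvan : ∀ x ∈ e, mev (π (guessVal d x.σ)) w = 1) :
    ∃ N, ∃ P : Finset (List (Fin d.n) × Outer d × List (Fin d.n)),
      ∀ v τ c g h, v.length = N → gpt v τ c g h ∈ e →
        clean d τ ∧ ∃ L, offset d τ = legit L true ∧ (v, h, L) ∈ P := by
  obtain ⟨N, T, hN⟩ := winDef_of_def hset he
  exact ⟨N, window_certificates hG hmif π hπ hN hw fun v _ τ c g h hx =>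
    hvan (gpt v τ c g h) hx⟩

end Vale.Agent.P193.Core.Loops
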