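import Mathlib.Algebra.Group.MinimalAxioms
import Vale.Agent.P193.Full.Core.Loops.Words

/-! Words in letters that preserve a set form a group modulo the congruence. -/

namespace Vale.Agent.P193.Loops

variable {S ι : Type} {K : Sys S ι} {Df : Set S → Prop}
  {R : Set S → List ι → List ι → Prop}

/-- Letters `X`, closed under inverse, each of which carries `E` onto itself. -/
structure Stable (K : Sys S ι) (Df : Set S → Prop) (R : Set S → List ι → List ι → Prop)
    (X : Type) where
  laws : Laws K Df R
  f : X → ι
  flip : X → X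
  f_flip : ∀ x, f (flip x) = K.inv (f x)
  E : Set S
  df : Df E
  dom : ∀ x, E ⊆ K.dom [f x]
  img : ∀ x, K.wimg [f x] E = E

namespace Stable

variable {X : Type} (T : Stable K Df R X)

theorem sub_dom (a : List X) :
    T.E ⊆ K.dom (a.map T.f) ∧ K.wimg (a.map T.f) T.E = T.E := by
  induction a with
  | nil => exact ⟨fun x _ => ⟨x, rfl⟩, Sys.wimg_nil _⟩
  | cons x a ih =>
    obtain ⟨h1, h2⟩ := ih
    rw [List.map_cons, show T.f x :: a.map T.f = [T.f x] ++ a.map T.f from rfl,
      Sys.dom_append, Sys.wimg_append, T.img x]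
    exact ⟨⟨T.dom x, h1⟩, h2⟩

/-- Congruence of words on `E`. -/
def Eqv (a b : List X) : Prop := Rw K Df R T.E (a.map T.f) (b.map T.f)

theorem eqv_refl (a : List X) : T.Eqv a a := Rw.refl T.laws T.df (T.sub_dom a).1

theorem eqv_append {a a' b b' : List X} (h : T.Eqv a a') (h' : T.Eqv b b') :
    T.Eqv (a ++ b) (a' ++ b') := by
  unfold Eqv at h h' ⊢
  rw [List.map_append, List.map_append]
  refine (h.back T.laws ?_).trans T.laws (Rw.front T.laws T.df (T.sub_dom a').1 ?_)
  · simpa using (T.sub_dom (a ++ b)).1
  · rw [(T.sub_dom a').2]; exact h'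

/-- The inverse word. -/
def rev (a : List X) : List X := (a.map T.flip).reverse

theorem map_rev (a : List X) : (T.rev a).map T.f = K.winv (a.map T.f) := by
  simp [rev, Sys.winv, List.map_reverse, List.map_map, Function.comp_def, T.f_flip]

theorem eqv_rev (a : List X) : T.Eqv (a ++ T.rev a) [] := by
  unfold Eqv
  rw [List.map_append, T.map_rev]
  exact Rw.cancel_word T.laws T.df (T.sub_dom a).1

/-- The setoid of congruence. -/
def setoid : Setoid (List X) where
  r := T.Eqv
  iseqv := ⟨T.eqv_refl, fun h => Rw.symm T.laws h, fun h h' => Rw.trans T.laws h h'⟩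

/-- Words modulo congruence on `E`. -/
def Grp : Type := Quotient T.setoid

/-- The class of a word. -/
def cls (a : List X) : T.Grp := Quotient.mk T.setoid a

theorem cls_eq {a b : List X} : T.cls a = T.cls b ↔ T.Eqv a b :=
  ⟨fun h => Quotient.exact h, fun h => Quotient.sound h⟩

instance : Mul T.Grp :=
  ⟨Quotient.lift₂ (fun a b => T.cls (a ++ b)) fun _ _ _ _ h h' =>
    Quotient.sound (T.eqv_append h h')⟩

instance : One T.Grp := ⟨T.cls []⟩

theorem eqv_rev_congr {a b : List X} (h : T.Eqv a b) : T.Eqv (T.rev a) (T.rev b) := by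
  have inv_left : ∀ c, T.Eqv (T.rev c ++ c) [] := fun c => by
    have e1 := T.eqv_rev (T.rev c)
    -- `c` and its double inverse act alike and are congruent
    have h1 : T.Eqv c (T.rev (T.rev c)) := by
      have p := T.eqv_append (T.eqv_refl c) (T.eqv_rev (T.rev c))
      have q := T.eqv_append (T.eqv_rev c) (T.eqv_refl (T.rev (T.rev c)))
      rw [List.append_nil] at p
      rw [List.nil_append, List.append_assoc] at q
      exact Rw.trans T.laws (Rw.symm T.laws p) q
    exact Rw.trans T.laws (T.eqv_append (T.eqv_refl _) h1) e1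
  have p := T.eqv_append (T.eqv_refl (T.rev a)) (T.eqv_rev b)
  have q := T.eqv_append (Rw.trans T.laws (T.eqv_append (T.eqv_refl (T.rev a))
    (Rw.symm T.laws h)) (inv_left a)) (T.eqv_refl (T.rev b))
  rw [List.append_nil] at p
  rw [List.append_assoc, List.nil_append] at q
  exact Rw.trans T.laws (Rw.symm T.laws p) q

instance : Inv T.Grp :=
  ⟨Quotient.map T.rev fun _ _ h => T.eqv_rev_congr h⟩

theorem cls_mul (a b : List X) : T.cls a * T.cls b = T.cls (a ++ b) := rfl

theorem cls_inv (a : List X) : (T.cls a)⁻¹ = T.cls (T.rev a) := rfl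

theorem cls_nil : T.cls [] = 1 := rfl

instance : Group T.Grp :=
  Group.ofRightAxioms
    (fun x y z => Quotient.inductionOn₃ x y z fun a b c =>
      congrArg T.cls (List.append_assoc a b c))
    (fun x => Quotient.inductionOn x fun a => congrArg T.cls (List.append_nil a))
    (fun x => Quotient.inductionOn x fun a => T.cls_eq.2 (T.eqv_rev a))

theorem cls_prod (a : List X) : T.cls a = (a.map fun x => T.cls [x]).prod := by
  induction a with
  | nil => rfl
  | cons x a ih => rw [List.map_cons, List.prod_cons, ← ih, T.cls_mul]; rfl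

theorem apply {a b : List X} (h : T.cls a = T.cls b) {e : Set S} (he : Df e) (hs : e ⊆ T.E) :
    Rw K Df R e (a.map T.f) (b.map T.f) :=
  Rw.mono T.laws he hs (T.cls_eq.1 h)

end Stable

end Vale.Agent.P193.Loops
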