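import Vale.Agent.P193.Full.Core.Loops.Letters
import Vale.Agent.P193.Full.Core.Loops.Stable

/-! Chosen words for group elements and the hypothesis that all short true rules hold. -/

namespace Vale.Agent.P193.Core.Loops

open Vale.Agent.P193.Loops Facts

set_option linter.unusedSectionVars false

variable {d : Data} [DecidableEq d.M.A]

/-- A word of inner generators. -/
def innerW (l : List (Fin d.n)) : List (Letter d) := l.map fun i => fw (.inner i)

/-- The element of a signed generator of the outer group. -/
def OGen.sval : OGen d × Bool → Outer d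
  | (a, true) => a.val
  | (a, false) => a.val⁻¹

/-- A word of signed outer generators. -/
def outerW (l : List (OGen d × Bool)) : List (Letter d) := l.map fun a => (.outer a.1, a.2)

theorem run_outer (hG : Good d) (a : OGen d × Bool) (x y : Point d) :
    (x, y) ∈ (sys hG).g (.outer a.1, a.2) ↔ y = { x with h := x.h * OGen.sval a } := by
  obtain ⟨a, _ | _⟩ := a
  · show (x, y) ∈ ginv (hT a.val) ↔ _
    rw [hT_inv]
    rfl
  · rfl

theorem run_outerW (hG : Good d) (l : List (OGen d × Bool)) (x y : Point d) :
    (sys hG).Run (outerW l) x y ↔ y = { x with h := x.h * (l.map OGen.sval).prod } := by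
  induction l generalizing x with
  | nil => simp [outerW, Sys.Run, eq_comm]
  | cons a l ih =>
    constructor
    · rintro ⟨z, hz, h⟩
      rw [run_outer hG a] at hz
      subst hz
      rw [(ih _).1 h]
      simp [mul_assoc]
    · rintro rfl
      exact ⟨_, (run_outer hG a _ _).2 rfl, (ih _).2 (by simp [mul_assoc])⟩

theorem run_innerW (hG : Good d) (l : List (Fin d.n)) (x y : Point d) :
    (sys hG).Run (innerW l) x y ↔ y = { x with g := x.g * (l.map d.gen).prod } := by
  induction l generalizing x with
  | nil => simp [innerW, Sys.Run, eq_comm]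
  | cons a l ih =>
    constructor
    · rintro ⟨z, (hz : z = _), h⟩
      simp only at hz
      subst hz
      rw [(ih _).1 h]
      simp [mul_assoc]
    · rintro rfl
      exact ⟨_, gT_apply _ _, (ih _).2 (by simp [mul_assoc])⟩

theorem exists_outer_word (hG : Good d) (t : Outer d) :
    ∃ l : List (OGen d × Bool), (l.map OGen.sval).prod = t := by
  have htop : Subgroup.closure (Set.range (OGen.val (d := d))) = ⊤ := by
    set H := Subgroup.closure (Set.range (OGen.val (d := d))) with hH
    have h0 : ∀ k, ((k, 1, 1) : Outer d) ∈ H := by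
      have : Subgroup.closure (d.subGens : Set d.Γ₀) ≤ H.comap (MonoidHom.inl d.Γ₀ _) :=
        (Subgroup.closure_le _).2 fun k hk =>
          Subgroup.subset_closure ⟨.base ⟨k, hk⟩, rfl⟩
      rw [hG.subGens_top] at this
      exact fun k => this (Subgroup.mem_top k)
    have h1 : ∀ f, ((1, f, 1) : Outer d) ∈ H := by
      have : Subgroup.closure (Set.range (FreeGroup.of (α := Ltr d))) ≤
          H.comap ((MonoidHom.inr d.Γ₀ _).comp (MonoidHom.inl _ _)) :=
        (Subgroup.closure_le _).2 fun _ ⟨a, ha⟩ => ha ▸ Subgroup.subset_closure ⟨.left a, rfl⟩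
      rw [FreeGroup.closure_range_of] at this
      exact fun f => this (Subgroup.mem_top f)
    have h2 : ∀ f, ((1, 1, f) : Outer d) ∈ H := by
      have : Subgroup.closure (Set.range (FreeGroup.of (α := Ltr d))) ≤
          H.comap ((MonoidHom.inr d.Γ₀ _).comp (MonoidHom.inr _ _)) :=
        (Subgroup.closure_le _).2 fun _ ⟨a, ha⟩ => ha ▸ Subgroup.subset_closure ⟨.right a, rfl⟩
      rw [FreeGroup.closure_range_of] at this
      exact fun f => this (Subgroup.mem_top f)
    refine top_unique fun x _ => ?_
    have := mul_mem (mul_mem (h0 x.1) (h1 x.2.1)) (h2 x.2.2)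
    simpa using this
  have hm : t ∈ Subgroup.closure (Set.range (OGen.val (d := d))) := htop ▸ Subgroup.mem_top t
  induction hm using Subgroup.closure_induction with
  | mem x hx => obtain ⟨a, rfl⟩ := hx; exact ⟨[(a, true)], by simp [OGen.sval]⟩
  | one => exact ⟨[], rfl⟩
  | mul x y _ _ hx hy =>
    obtain ⟨a, rfl⟩ := hx
    obtain ⟨b, rfl⟩ := hy
    exact ⟨a ++ b, by simp⟩
  | inv x _ hx =>
    obtain ⟨a, rfl⟩ := hx
    refine ⟨(a.map fun p => (p.1, !p.2)).reverse, ?_⟩
    rw [List.prod_inv_reverse, List.map_reverse, List.map_map, List.map_map]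
    congr 2
    exact List.map_congr_left fun p _ => by obtain ⟨p, _ | _⟩ := p <;> simp [OGen.sval]

/-- A chosen word of inner generators with a given product. -/
noncomputable def iw (hG : Good d) (m : Inner d) : List (Fin d.n) := (hG.gen_surj m).choose

theorem iw_prod (hG : Good d) (m : Inner d) : ((iw hG m).map d.gen).prod = m :=
  (hG.gen_surj m).choose_spec

/-- A chosen word of outer generators with a given product. -/
noncomputable def ow (hG : Good d) (t : Outer d) : List (OGen d × Bool) :=
  (exists_outer_word hG t).choose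

theorem ow_prod (hG : Good d) (t : Outer d) : ((ow hG t).map OGen.sval).prod = t :=
  (exists_outer_word hG t).choose_spec

/-- The elements whose chosen words enter the rules. -/
def ruleElts : Set (Inner d) :=
  {m | ∃ i j, m = proj j (d.gen i) ∨ m = (proj j (d.gen i))⁻¹} ∪
    Set.range fun a : OGen d × Bool => toInner d (OGen.sval a)

instance : Finite (OGen d) := by
  have := d.M.fintypeA
  let f : d.subGens ⊕ Ltr d ⊕ Ltr d → OGen d
    | .inl k => .base k
    | .inr (.inl a) => .left a
    | .inr (.inr a) => .right a
  refine Finite.of_surjective f fun x => ?_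
  cases x with
  | base k => exact ⟨.inl k, rfl⟩
  | left a => exact ⟨.inr (.inl a), rfl⟩
  | right a => exact ⟨.inr (.inr a), rfl⟩

theorem ruleElts_finite : (ruleElts (d := d)).Finite := by
  refine Set.Finite.union ?_ (Set.finite_range _)
  refine ((Set.finite_range fun p : Fin d.n × Fin 3 => proj p.2 (d.gen p.1)).union
    (Set.finite_range fun p : Fin d.n × Fin 3 => (proj p.2 (d.gen p.1))⁻¹)).subset ?_
  rintro m ⟨i, j, rfl | rfl⟩
  · exact Or.inl ⟨(i, j), rfl⟩
  · exact Or.inr ⟨(i, j), rfl⟩

/-- The length up to which rules are needed. -/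
noncomputable def bound (hG : Good d) : ℕ :=
  24 + 3 * (ruleElts_finite (d := d)).toFinset.sup (fun m => (iw hG m).length) +
    2 * (ow hG (1, FreeGroup.mk [((d.M.head true, false), true), ((d.M.last, false), true)], 1)).length

theorem iw_length {hG : Good d} {m : Inner d} (hm : m ∈ ruleElts) :
    24 + 3 * (iw hG m).length ≤ bound hG := by
  have := Finset.le_sup (f := fun m => (iw hG m).length)
    ((ruleElts_finite (d := d)).mem_toFinset.2 hm)
  unfold bound
  omega

theorem small_le {hG : Good d} {k : ℕ} (h : k ≤ 24) : k ≤ bound hG := by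
  unfold bound; omega

/-- One word's action is contained in the other's. -/
def Sub (hG : Good d) (u v : List (Letter d)) : Prop :=
  ∀ x y, (sys hG).Run u x y → (sys hG).Run v x y

/-- The congruence satisfies every short true rule. -/
structure Ctx (hG : Good d) (Df : Set (Point d) → Prop)
    (R : Set (Point d) → List (Letter d) → List (Letter d) → Prop) : Prop where
  laws : Laws (sys hG) Df R
  rule : ∀ u v, u.length ≤ bound hG → v.length ≤ bound hG → Sub hG u v →
    Rw (sys hG) Df R ((sys hG).dom u) u v

variable {hG : Good d} {Df : Set (Point d) → Prop}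
  {R : Set (Point d) → List (Letter d) → List (Letter d) → Prop}

theorem Ctx.use (C : Ctx hG Df R) {u v : List (Letter d)} (hu : u.length ≤ bound hG)
    (hv : v.length ≤ bound hG) (hs : Sub hG u v) {e : Set (Point d)} (he : Df e)
    (hd : e ⊆ (sys hG).dom u) : Rw (sys hG) Df R e u v :=
  Rw.mono C.laws he hd (C.rule u v hu hv hs)

end Vale.Agent.P193.Core.Loops
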