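import Vale.Agent.P193.Full.Core.Loops.Short
import Vale.Agent.P193.Full.Core.Loops.Cover

/-! All flat loops are congruent to the empty word. -/

namespace Vale.Agent.P193.Core.Loops

open Vale.Agent.P193.Loops Facts

set_option linter.unusedSectionVars false

variable {d : Data} [DecidableEq d.M.A] {hG : Good d}

theorem prj0_proj (k : Fin 3) (m : Inner d) (hk : k ≠ 0) : prj0 (proj k m) = 1 := by
  match k with
  | 0 => exact absurd rfl hk
  | 1 => rfl
  | 2 => rfl

theorem prj1_proj (k : Fin 3) (m : Inner d) (hk : k ≠ 1) : prj1 (proj k m) = 1 := by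
  match k with
  | 0 => rfl
  | 1 => exact absurd rfl hk
  | 2 => rfl

theorem prj2_proj (k : Fin 3) (m : Inner d) (hk : k ≠ 2) : prj2 (proj k m) = 1 := by
  match k with
  | 0 => rfl
  | 1 => rfl
  | 2 => exact absurd rfl hk

/-- The word of guessed letters, deepest first. -/
def lettersW : List (Fin d.n) → List (Letter d)
  | [] => []
  | i :: v => lettersW v ++ [edgeL i]

theorem run_lettersW (v : List (Fin d.n)) (σ : Path d .guess) (b : Bool) (w : Wd d b)
    (g : Inner d) (h : Outer d) :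
    ∃ h', (sys hG).Run (lettersW v) ⟨.guess, σ, b, w, g, h⟩ ⟨.guess, pre v σ, b, w, g, h' * h⟩ ∧
      h' = (v.map letElt).prod := by
  induction v with
  | nil => exact ⟨1, by simp [lettersW, pre, Sys.Run], rfl⟩
  | cons i v ih =>
    obtain ⟨h', hr, rfl⟩ := ih
    exact ⟨letElt i * (v.map letElt).prod, Sys.run_append.2 ⟨_, hr, Sys.run_singleton.2
      ((run_edgeL i _ _).2 ⟨_, _, _, _, _, rfl, by simp [pre, mul_assoc]⟩)⟩, by simp⟩

/-- The seen offset of a certificate. -/
def certZ (v : List (Fin d.n)) (c : Outer d) (L : List (Fin d.n)) : FA d :=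
  c.2.1⁻¹ * ((guessed v)⁻¹ * legit L true) * c.2.2

/-- The certificates with given parameters, as a set cut out by words. -/
noncomputable def certSet (hG : Good d) (p : List (Fin d.n) × Outer d × List (Fin d.n)) :
    Set (Point d) :=
  (sys hG).dom (testW [.tag, .clean] ++ otW hG p.2.1⁻¹ ++ testW [.hOne]) ∩
    (sys hG).dom (otW hG (1, certZ p.1 p.2.1 p.2.2, 1) ++ testW [.zOne]) ∩
      (sys hG).wimg (lettersW p.1) ((sys hG).dom gcW)

theorem mem_certSet (p : List (Fin d.n) × Outer d × List (Fin d.n)) (x : Point d) :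
    x ∈ certSet hG p ↔ CertAt p.1 p.2.1 p.2.2 x := by
  obtain ⟨v, c, L⟩ := p
  constructor
  · rintro ⟨⟨⟨y, hy⟩, y', hy'⟩, z, hz, hzx⟩
    obtain ⟨zs, zb⟩ := (mem_gcW z).1 hz
    obtain ⟨s, σ, b, w, g, h⟩ := z
    obtain rfl : s = .guess := zs
    obtain rfl : b = true := zb
    obtain ⟨h', hr, -⟩ := run_lettersW (hG := hG) v σ true w g h
    obtain rfl := Sys.run_func hzx hr
    simp only [Sys.run_append, run_testW, run_otW] at hy hy'
    obtain ⟨_, ⟨_, ⟨rfl, ht⟩, rfl⟩, rfl, hh⟩ := hy
    obtain ⟨_, rfl, rfl, hzo⟩ := hy'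
    have hh1 : h' * h = c := mul_inv_eq_one.1 (hh .hOne List.mem_cons_self)
    have hc : clean d σ :=
      (clean_pre v σ).1 (ht .clean (List.mem_cons_of_mem _ List.mem_cons_self)).2
    have hz1 := hzo .zOne List.mem_cons_self
    refine ⟨σ, w, g, by rw [gpt, hh1], hc, ?_⟩
    simp only [GidK.set, zOneS, Set.mem_ofPred_eq, zval, offset_pre, hh1, Prod.snd_mul,
      Prod.fst_mul, mul_one, certZ] at hz1
    rw [mul_inv_rev, mul_assoc, mul_assoc, inv_mul_eq_one] at hz1
    simp only [mul_assoc, mul_left_inj, mul_right_inj] at hz1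
    exact hz1.symm
  · rintro ⟨τ, w, g, rfl, hc, ho⟩
    refine ⟨⟨?_, ?_⟩, ?_⟩
    · refine ⟨_, Sys.run_append.2 ⟨_, Sys.run_append.2 ⟨_, (run_testW _ _ _).2 ⟨rfl, ?_⟩,
        (run_otW _ _ _).2 rfl⟩, (run_testW _ _ _).2 ⟨rfl, ?_⟩⟩⟩
      · simp [GidK.set, tagS, cleanS, clean_pre, hc]
      · simp [GidK.set, hOneS]
    · refine ⟨_, Sys.run_append.2 ⟨_, (run_otW _ _ _).2 rfl, (run_testW _ _ _).2 ⟨rfl, ?_⟩⟩⟩
      simp [GidK.set, zOneS, zval, offset_pre, ho, certZ, mul_assoc]
    · refine ⟨⟨.guess, τ, true, w, g, ((v.map letElt).prod)⁻¹ * c⟩,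
        (mem_gcW _).2 ⟨rfl, rfl⟩, ?_⟩
      obtain ⟨h3, hr3, e3⟩ := run_lettersW (hG := hG) v τ true w g (((v.map letElt).prod)⁻¹ * c)
      rw [e3, mul_inv_cancel_left] at hr3
      exact hr3

variable {Df : Set (Point d) → Prop}
  {R : Set (Point d) → List (Letter d) → List (Letter d) → Prop} (C : Ctx hG Df R)

include C

theorem certSet_df (p : List (Fin d.n) × Outer d × List (Fin d.n)) : Df (certSet hG p) :=
  C.laws.inter _ _ (C.laws.inter _ _ (C.laws.dom_df _) (C.laws.dom_df _))
    (C.laws.wimg_df (C.laws.dom_df _))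

/-- A loop is trivial at a certificate. -/
theorem cert_loop (p : List (Fin d.n) × Outer d × List (Fin d.n)) (l : List (UX d))
    {e : Set (Point d)} (he : Df e) (hs : e ⊆ certSet hG p)
    (hloop : ∀ x ∈ e, (sys hG).Run (l.map uxL) x x) : Rw (sys hG) Df R e (l.map uxL) [] := by
  rcases e.eq_empty_or_nonempty with h0 | ⟨x₀, hx₀⟩
  · exact Rw.of_eq_empty C.laws h0
  set a := (p.1.map d.gen).prod * ((p.2.2.reverse.map d.gen).prod)⁻¹ with ha
  have hflat : Flatset (certSet hG p) :=
    ⟨fun x hx => (certAt_flat ((mem_certSet p x).1 hx)).1,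
      fun x hx g => (mem_certSet p _).2 ((certAt_flat ((mem_certSet p x).1 hx)).2 g)⟩
  have hd := certSet_df C p
  have huH : ∀ j, uH C hflat hd j = inH C hflat hd (proj j a) := fun j => by
    show _ = (stab C hflat hd).cls (posX _)
    rw [uH, Stable.cls_eq]
    show Rw (sys hG) Df R (certSet hG p) ([((.inr j, true) : UX d)].map uxL) ((posX _).map uxL)
    rw [posX_map]
    exact const_cert C p.1 p.2.1 p.2.2 _ hd (fun x hx => (mem_certSet p x).1 hx) j
  have key : ∀ l : List (UX d),
      (stab C hflat hd).cls l = inH C hflat hd (l.map (uxVal a)).prod := by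
    intro l
    induction l with
    | nil => exact ((inH C hflat hd).map_one).symm
    | cons y l ih' =>
      rw [show y :: l = [y] ++ l from rfl, ← Stable.cls_mul, ih']
      simp only [List.map_append, List.prod_append, _root_.map_mul]
      congr 1
      obtain ⟨i | j, _ | _⟩ := y
      · rw [show (stab C hflat hd).cls [(Sum.inl i, false)] =
          ((stab C hflat hd).cls [(.inl i, true)])⁻¹ from rfl, cls_inner]
        simp [uxVal]
      · rw [cls_inner]; simp [uxVal]
      · rw [show (stab C hflat hd).cls [(Sum.inr j, false)] = (uH C hflat hd j)⁻¹ from rfl, huH]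
        simp [uxVal]
      · rw [show (stab C hflat hd).cls [(Sum.inr j, true)] = uH C hflat hd j from rfl, huH]
        simp [uxVal]
  have hcls := key l
  obtain ⟨τ, w, g, hx, hc, ho⟩ := (mem_certSet p x₀).1 (hs hx₀)
  have hg : guessVal d x₀.σ = a := by
    rw [hx, guessVal_pre, ha, eq_inv_of_mul_eq_one_right
      ((legit_path hG τ rfl hc p.2.2 true ho).2 rfl)]
  have h1 := loop_prod (hloop x₀ hx₀)
  rw [hg] at h1
  rw [h1, map_one, ← Stable.cls_nil] at hcls
  exact Stable.apply _ hcls he hs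

/-- A loop in inner generators and components on guessing points is trivial. -/
theorem ux_loop (hW : ∀ e, Df e → WinDef e) (l : List (UX d)) {e : Set (Point d)} (he : Df e)
    (hgc : e ⊆ (sys hG).dom gcW) (hloop : ∀ x ∈ e, (sys hG).Run (l.map uxL) x x) :
    Rw (sys hG) Df R e (l.map uxL) [] := by
  classical
  obtain ⟨N, T, hN⟩ := hW e he
  have split : ∀ {Γ : Type} [Group Γ], MixedIdentityFree Γ → ∀ (π : Inner d →* Γ) (j : Fin 3),
      Function.Surjective π → (∀ m, π (proj j m) = π m) →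
      (∀ k m, k ≠ j → π (proj k m) = 1) → mixW π j l ≠ 1 →
      Rw (sys hG) Df R e (l.map uxL) [] := by
    intro Γ _ hmif π j hπ hj hk hw
    obtain ⟨P, hP⟩ := window_certificates hG hmif π hπ hN hw fun v _ τ c g h hx => by
      rw [mev, mev_mixW π j _ (hj _) (fun k hk' => hk k _ hk') l,
        loop_prod (p := gpt v τ c g h) (hloop _ hx), map_one]
    refine C.laws.cover (certSet hG) (certSet_df C) P.toList e he (fun p _ => ?_)
      fun e' he' hs hdis => ?_
    · exact cert_loop C p l (C.laws.inter _ _ he (certSet_df C p)) Set.inter_subset_right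
        fun x hx => hloop x hx.1
    · refine short_loop C N l he' (hs.trans hgc) (fun x hx => hloop x (hs hx)) ?_
      rintro x hx ⟨v, τ, w, g, h, hv, rfl⟩
      obtain ⟨hc, L, hL, hmem⟩ := hP v τ w g h hv (hs hx)
      exact Set.disjoint_left.1 (hdis (v, h, L) (Finset.mem_toList.2 hmem)) hx
        ((mem_certSet _ _).2 ⟨τ, w, g, rfl, hc, hL⟩)
  by_cases h0 : mixW prj0 0 l ≠ 1
  · exact split hG.mif prj0 0 (fun g => ⟨(g, 1, 1), rfl⟩) (fun m => rfl)
      (fun k m hk => prj0_proj k m hk) h0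
  by_cases h1 : mixW prj1 1 l ≠ 1
  · exact split hG.mif_free prj1 1 (fun g => ⟨(1, g, 1), rfl⟩) (fun m => rfl)
      (fun k m hk => prj1_proj k m hk) h1
  by_cases h2 : mixW prj2 2 l ≠ 1
  · exact split hG.mif_free prj2 2 (fun g => ⟨(1, 1, g), rfl⟩) (fun m => rfl)
      (fun k m hk => prj2_proj k m hk) h2
  push Not at h0 h1 h2
  have hd := C.laws.dom_df (gcW (d := d))
  have hcls : (stab C gcW_flat hd).cls l = (stab C gcW_flat hd).cls [] := by
    rw [cls_mix, h0, h1, h2, Stable.cls_nil]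
    exact map_one _
  exact Stable.apply _ hcls he hgc

/-- All flat loops are trivial. -/
theorem flatLoops (hW : ∀ e, Df e → WinDef e) : FlatLoops hG Df R := by
  intro e t he ht hloop
  obtain ⟨lo, lx, h⟩ := flat_normal C t ht he fun x hx => ⟨x, hloop x hx⟩
  rcases e.eq_empty_or_nonempty with h0 | ⟨x₀, hx₀⟩
  · exact Rw.of_eq_empty C.laws h0
  have hl : ∀ x ∈ e, (sys hG).Run (outerW lo ++ lx.map uxL) x x := fun x hx => by
    obtain ⟨y, hy1, hy2⟩ := h.same x hx
    exact Sys.run_func (hloop x hx) hy1 ▸ hy2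
  have hlo : (lo.map OGen.sval).prod = 1 := by
    obtain ⟨z, hz, hzx⟩ := Sys.run_append.1 (hl x₀ hx₀)
    rw [run_outerW] at hz
    subst hz
    have := congrArg Point.h (run_ux_list lx hzx).1
    simpa using this.symm
  have hX : ∀ x ∈ e, (sys hG).Run (lx.map uxL) x x := fun x hx => by
    obtain ⟨z, hz, hzx⟩ := Sys.run_append.1 (hl x hx)
    rw [run_outerW, hlo, mul_one] at hz
    rw [hz] at hzx
    exact hzx
  refine h.trans C.laws (((law_outer C hlo he).back C.laws h.right).trans C.laws ?_)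
  by_cases hu : NoU lx
  · exact noU_loop C hu he hX
  simp only [NoU, not_forall, not_not] at hu
  obtain ⟨j, b, hm⟩ := hu
  exact ux_loop C hW lx he (fun x hx => (mem_gcW x).2 ((run_ux_list lx (hX x hx)).2 j b hm)) hX

end Vale.Agent.P193.Core.Loops
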