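import Vale.Agent.P193.Full.Core.Loops.Rule1

/-! Translation words with trivial product are congruent to the empty word everywhere. -/

namespace Vale.Agent.P193.Core.Loops

open Vale.Agent.P193.Loops Facts

set_option linter.unusedSectionVars false

variable {d : Data} [DecidableEq d.M.A] {hG : Good d}

/-- All three components at once. -/
def uAll : List (Letter d) := [uL (0, true), uL (1, true), uL (2, true)]

theorem run_uAll (x y : Point d) :
    (sys hG).Run uAll x y ↔
      x.st = .guess ∧ x.tag = true ∧ y = { x with g := x.g * guessVal d x.σ } := by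
  constructor
  · rintro ⟨z1, h1, z2, h2, z3, h3, rfl⟩
    obtain ⟨a, b, rfl⟩ := (run_u _ _ _).1 h1
    obtain ⟨-, -, rfl⟩ := (run_u _ _ _).1 h2
    obtain ⟨-, -, rfl⟩ := (run_u _ _ _).1 h3
    refine ⟨a, b, ?_⟩
    simp [uval, mul_assoc]
    rw [← mul_assoc (proj 0 _), proj_prod]
  · rintro ⟨a, b, rfl⟩
    refine ⟨_, (run_u _ _ _).2 ⟨a, b, rfl⟩, _, (run_u _ _ _).2 ⟨a, b, rfl⟩, _,
      (run_u _ _ _).2 ⟨a, b, rfl⟩, ?_⟩
    simp [Sys.Run, uval, mul_assoc]
    rw [← mul_assoc (proj 0 _), proj_prod]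

theorem sub_exit_u (p : Fin 3 × Bool) (e : {e : Edge d // e.OK}) (h : e.1.tgt ≠ .guess ∨
    ∀ i, e.1.kind ≠ .letter i) : Sub hG [fw (.edge e), uL p] [fw (.edge e)] := by
  rintro x y ⟨z, hz, z', hz', rfl⟩
  obtain ⟨σ, b, w, g, t, rfl, rfl⟩ := (run_edge e _ _).1 hz
  obtain ⟨-, -, rfl⟩ := (run_u p _ _).1 hz'
  have hu : guessVal d (Path.cons e.1 e.2 σ) = 1 := by
    rcases hk : e.1.kind with i | _ | _
    · rcases h with h | h
      · obtain ⟨e, he⟩ := e
        cases he with
        | letter j => exact absurd rfl h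
        | _ => simp_all
      · exact absurd hk (h i)
    all_goals simp [guessVal, hk]
  exact ⟨_, hz, by simp [Sys.Run, hu, uval_one]⟩

theorem sub_letter_uAll (i : Fin d.n) :
    Sub hG (fw (.edge ⟨_, Edge.OK.letter i⟩) :: uAll)
      (fw (.inner i) :: (uAll ++ [fw (.edge ⟨_, Edge.OK.letter i⟩)])) := by
  rintro x y ⟨z, hz, hzy⟩
  obtain ⟨σ, b, w, g, t, rfl, rfl⟩ := (run_edge _ _ _).1 hz
  obtain ⟨-, hb, rfl⟩ := (run_uAll _ _).1 hzy
  refine ⟨_, (run_inner i _ _).2 rfl, Sys.run_append.2 ⟨_, (run_uAll _ _).2 ⟨rfl, hb, rfl⟩,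
    Sys.run_singleton.2 ((run_edge _ _ _).2 ⟨σ, b, w, _, t, rfl, ?_⟩)⟩⟩
  simp [guessVal, mul_assoc]

/-- The final points of the tag without point predicate. -/
def finC : List (Letter d) := testW [.st .fin, .tag, .hOne]

theorem mem_finC (x : Point d) :
    x ∈ (sys hG).dom finC ↔ x.st = .fin ∧ x.tag = true ∧ x.h = 1 := by
  rw [finC, dom_testW]
  simp [GidK.set, atS, tagS, hOneS]

theorem exists_finC {x : Point d} (hx : x.st = .fin ∧ x.tag = true ∧ x.h = 1) :
    ∃ w g, x = ⟨.fin, .nil, true, w, g, 1⟩ := by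
  obtain ⟨s, σ, b, w, g, h⟩ := x
  obtain ⟨rfl, rfl, rfl⟩ := hx
  exact ⟨w, g, by rw [path_fin σ]⟩

variable {Df : Set (Point d) → Prop}
  {R : Set (Point d) → List (Letter d) → List (Letter d) → Prop} (C : Ctx hG Df R)

include C

/-- An inner generator moves past the word of a path. -/
theorem liftW_inner (i : Fin d.n) : ∀ {s : State d} (σ : Path d s) (e : Set (Point d)), Df e →
    e ⊆ (sys hG).dom (liftW σ ++ [fw (.inner i)]) →
    Rw (sys hG) Df R e (liftW σ ++ [fw (.inner i)]) ([fw (.inner i)] ++ liftW σ) := by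
  intro s σ
  induction σ with
  | nil => intro e he hd; simpa [liftW] using Rw.refl C.laws he hd
  | cons ed hed σ ihσ =>
    intro e he hd
    simp only [liftW, List.append_assoc] at hd ⊢
    have a1 := Rw.front C.laws he (Sys.dom_append.1 hd).1
      (C.use (v := [fw (.inner i), fw (.edge ⟨ed, hed⟩)]) (small_le (by simp))
        (small_le (by simp)) (sub_edge_inner i ⟨ed, hed⟩) (C.laws.wimg_df he)
        (Sys.dom_append.1 hd).2)
    refine a1.trans C.laws ?_
    have a2 := a1.right
    rw [show liftW σ ++ [fw (.inner i), fw (.edge ⟨ed, hed⟩)] =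
      (liftW σ ++ [fw (.inner i)]) ++ [fw (.edge ⟨ed, hed⟩)] by simp] at a2 ⊢
    rw [show [fw (.inner i)] ++ (liftW σ ++ [fw (.edge ⟨ed, hed⟩)]) =
      ([fw (.inner i)] ++ liftW σ) ++ [fw (.edge ⟨ed, hed⟩)] by simp]
    exact (ihσ e he (Sys.dom_append.1 a2).1).back C.laws a2

omit C in
theorem finC_lift_dom (σ : Path d .guess) {B : Set (Point d)}
    (hBs : B ⊆ (sys hG).dom finC) (w : List (Letter d))
    (hw : ∀ x : Point d, x.st = .guess → x.tag = true → x ∈ (sys hG).dom w) :
    B ⊆ (sys hG).dom (liftW σ ++ w) := by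
  intro x hx
  obtain ⟨cw, g, rfl⟩ := exists_finC ((mem_finC x).1 (hBs hx))
  obtain ⟨y, hy⟩ := hw ⟨.guess, σ, true, cw, g, pq σ * 1⟩ rfl rfl
  exact ⟨y, Sys.run_append.2 ⟨_, run_liftW σ _ _ _ _, hy⟩⟩

omit C in
theorem uAll_dom (x : Point d) (a : x.st = .guess) (b : x.tag = true) :
    x ∈ (sys hG).dom uAll := ⟨_, (run_uAll x _).2 ⟨a, b, rfl⟩⟩

/-- Guessed letters turn the components into the guessed inner word. -/
theorem uAll_lift (τ : Path d (.bd false)) (v : List (Fin d.n)) :
    ∃ σ : Path d .guess, clean d σ ∧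
      offset d σ = (guessed v)⁻¹ * offset d (Path.cons _ Edge.OK.exit τ) ∧
      ∀ B, Df B → B ⊆ (sys hG).dom finC →
        Rw (sys hG) Df R B (liftW σ ++ uAll) (innerW v ++ liftW σ) := by
  induction v with
  | nil =>
    refine ⟨Path.cons _ Edge.OK.exit τ, by simp [clean], by simp [guessed, pw_nil],
      fun B hB hBs => ?_⟩
    rw [show innerW ([] : List (Fin d.n)) = [] from rfl, List.nil_append]
    have hd := finC_lift_dom (Path.cons _ Edge.OK.exit τ) hBs _ uAll_dom
    have single : ∀ (p : Fin 3 × Bool) (e : Set (Point d)), Df e →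
        e ⊆ (sys hG).dom [fw (.edge ⟨_, Edge.OK.exit⟩), uL p] →
        Rw (sys hG) Df R e [fw (.edge ⟨_, Edge.OK.exit⟩), uL p]
          [fw (.edge ⟨_, Edge.OK.exit⟩)] := fun p e he hde =>
      C.use (small_le (by simp)) (small_le (by simp))
        (sub_exit_u p _ (Or.inl (by simp))) he hde
    simp only [liftW, uAll, List.append_assoc, List.singleton_append] at hd ⊢
    have hE := (Sys.dom_append.1 hd).2
    refine Rw.front C.laws hB (Sys.dom_append.1 hd).1 ?_
    have he := C.laws.wimg_df (w := liftW τ) hB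
    have a1 := (single (0, true) _ he
      ((Sys.dom_append (u := [fw (.edge ⟨_, Edge.OK.exit⟩), uL (0, true)])
        (v := [uL (1, true), uL (2, true)])).1 hE).1).back C.laws (b := [uL (1, true), uL (2, true)]) hE
    have a2 := (single (1, true) _ he
      ((Sys.dom_append (u := [fw (.edge ⟨_, Edge.OK.exit⟩), uL (1, true)])
        (v := [uL (2, true)])).1 a1.right).1).back C.laws (b := [uL (2, true)]) a1.right
    exact a1.trans C.laws (a2.trans C.laws (single (2, true) _ he a2.right))
  | cons i v ih =>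
    obtain ⟨σ, hc, ho, hr⟩ := ih
    refine ⟨Path.cons _ (Edge.OK.letter i) σ, hc, ?_, fun B hB hBs => ?_⟩
    · rw [offset_cons_plain _ _ _ rfl rfl, ho, guessed_cons, mul_inv_rev, mul_assoc]
      congr 1
    have hd := finC_lift_dom (Path.cons _ (Edge.OK.letter i) σ) hBs _ uAll_dom
    simp only [liftW, List.append_assoc, List.singleton_append] at hd ⊢
    have h1 : Rw (sys hG) Df R B (liftW σ ++ fw (.edge ⟨_, Edge.OK.letter i⟩) :: uAll)
        (liftW σ ++ ([fw (.inner i)] ++ (uAll ++ [fw (.edge ⟨_, Edge.OK.letter i⟩)]))) :=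
      Rw.front C.laws hB (Sys.dom_append.1 hd).1
        (C.use (small_le (by simp [uAll])) (small_le (by simp [uAll])) (sub_letter_uAll i)
          (C.laws.wimg_df hB) (Sys.dom_append.1 hd).2)
    refine h1.trans C.laws ?_
    have hdi := h1.right
    rw [← List.append_assoc] at hdi ⊢
    refine ((liftW_inner C i σ B hB (Sys.dom_append.1 hdi).1).back C.laws hdi).trans C.laws ?_
    have hd2 := ((liftW_inner C i σ B hB (Sys.dom_append.1 hdi).1).back C.laws hdi).right
    rw [show innerW (i :: v) = [fw (.inner i)] ++ innerW v from rfl]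
    simp only [List.append_assoc] at hd2 ⊢
    refine Rw.front C.laws hB (Sys.dom_append.1 hd2).1 ?_
    have hd3 := (Sys.dom_append.1 hd2).2
    rw [← List.append_assoc] at hd3 ⊢
    rw [← List.append_assoc (innerW v)]
    refine (hr _ (C.laws.wimg_df hB) ?_).back C.laws hd3
    rintro y ⟨x, hx, hxy⟩
    rw [Sys.run_singleton, run_inner] at hxy
    subst hxy
    rw [mem_finC]
    exact (mem_finC x).1 (hBs hx)

/-- A positive inner word with trivial product is congruent to the empty word on final points of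
the tag without point predicate. -/
theorem law_finC {v : List (Fin d.n)} (hv : (v.map d.gen).prod = 1) {B : Set (Point d)}
    (hB : Df B) (hBs : B ⊆ (sys hG).dom finC) : Rw (sys hG) Df R B (innerW v) [] := by
  have hrow := (hG.lawful.correct v.reverse true).2 (by
    rw [hG.pred]; simp [hv])
  obtain ⟨τ, hτ⟩ := (row_path_iff hG false (d.M.initRow v.reverse true)).2 hrow
  obtain ⟨σ, hc, ho, hr⟩ := uAll_lift C τ v
  have ho' : offset d σ = legit [] true := by
    rw [ho, offset_cons_plain _ _ _ rfl rfl, hτ, ← legit_row, ← mul_assoc (FreeGroup.mk _),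
      show FreeGroup.mk [((d.M.first, false), false)] =
        (FreeGroup.mk [((d.M.first, false), true)] : FA d)⁻¹ by rw [FreeGroup.inv_mk]; rfl,
      inv_mul_cancel, one_mul, guessed, legit, legit, legitRow, legitRow,
      pw_append, inv_mul_cancel_left, List.map_nil, List.nil_append]
  refine Rw.strip C.laws (a := liftW σ) (Rw.trans C.laws (Rw.symm C.laws (hr B hB hBs)) ?_)
  have hd := finC_lift_dom σ hBs _ uAll_dom
  refine (Rw.front (u := uAll) (v := []) C.laws hB (Sys.dom_append.1 hd).1 ?_).trans C.laws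
    (by simpa using Rw.refl C.laws hB (Sys.dom_append.1 hd).1)
  -- translate the outer coordinate to the shortest true offset
  set T := (sys hG).wimg (liftW σ) B with hT
  have hTdf : Df T := C.laws.wimg_df hB
  have hTs : ∀ x ∈ T, ∃ w g, x = ⟨.guess, σ, true, w, g, pq σ⟩ := by
    rintro x ⟨y, hy, hyx⟩
    obtain ⟨w, g, rfl⟩ := exists_finC ((mem_finC y).1 (hBs hy))
    refine ⟨w, g, ?_⟩
    rw [Sys.run_func hyx (run_liftW σ _ _ _ _), mul_one]
  let t : List (OGen d × Bool) := ow hG ((pq σ)⁻¹ * cTrue)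
  have e1 : ∀ l : List (OGen d × Bool),
      outerW l = l.flatMap fun a => [(.outer a.1, a.2)] := fun l => by
    rw [outerW, ← List.flatMap_pure_eq_map]; rfl
  have step : ∀ (p : Fin 3 × Bool) (e : Set (Point d)), Df e → e ⊆ T →
      Rw (sys hG) Df R e [uL p] [] := by
    intro p e he hes
    refine Rw.descend C.laws (a := outerW t) (u' := [uL p]) (dom_outerW t e) ?_ ?_
    · rw [e1 t]
      have hd' : e ⊆ (sys hG).dom ([uL p] ++ t.flatMap fun a => [(Atom.outer a.1, a.2)]) := by
        rw [← e1 t]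
        intro x hx
        obtain ⟨w, g, rfl⟩ := hTs x (hes hx)
        exact ⟨_, Sys.run_append.2 ⟨_, Sys.run_singleton.2 ((run_u p _ _).2 ⟨rfl, rfl, rfl⟩),
          (run_outerW hG t _ _).2 rfl⟩⟩
      exact Rw.slide' C.laws _ (fun a => [(Atom.outer a.1, a.2)])
        (fun a e' he' hde' => C.use (small_le (by simp)) (small_le (by simp)) (sub_u_outer p a)
          he' hde') he t hd'
    · refine rule1 C p (C.laws.wimg_df he) ?_
      rintro y ⟨x, hx, hxy⟩
      obtain ⟨w, g, rfl⟩ := hTs x (hes hx)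
      rw [run_outerW, ow_prod] at hxy
      simp only [mul_inv_cancel_left] at hxy
      subst hxy
      refine ⟨rfl, ⟨rfl, hc⟩, ?_, rfl⟩
      show (cTrue (d := d)).2.1⁻¹ * offset d σ * (cTrue (d := d)).2.2 = 1
      rw [ho', cTrue_eq, show (cTrue (d := d)).2.2 = 1 from rfl, mul_one, inv_mul_cancel]
  -- the three components one after another, each leaving the set in place
  have keep : ∀ {p : Fin 3 × Bool} {e : Set (Point d)}, Df e → e ⊆ T →
      (sys hG).wimg [uL p] e = e := by
    intro p e he hes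
    have h1 := step p e he hes
    ext y
    constructor
    · rintro ⟨x, hx, hxy⟩
      obtain ⟨z, hz, hz'⟩ := h1.same x hx
      obtain rfl : x = z := hz'
      exact Sys.run_func hxy hz ▸ hx
    · intro hy
      obtain ⟨z, hz, hz'⟩ := h1.same y hy
      obtain rfl : y = z := hz'
      exact ⟨y, hy, hz⟩
  have h01 : Rw (sys hG) Df R T uAll [uL (1, true), uL (2, true)] := by
    refine (step (0, true) T hTdf subset_rfl).back C.laws (b := [uL (1, true), uL (2, true)]) ?_
    exact (Sys.dom_append.1 hd).2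
  refine h01.trans C.laws ?_
  have h12 : Rw (sys hG) Df R T [uL (1, true), uL (2, true)] [uL (2, true)] :=
    (step (1, true) T hTdf subset_rfl).back C.laws (b := [uL (2, true)]) h01.right
  exact h12.trans C.laws (step (2, true) T hTdf subset_rfl)

/-- A positive inner word with trivial product is congruent to the empty word. -/
theorem law_inner {v : List (Fin d.n)} (hv : (v.map d.gen).prod = 1) {e : Set (Point d)}
    (he : Df e) : Rw (sys hG) Df R e (innerW v) [] := by
  have pull : ∀ (P : PushK), P ≠ .theta → ∀ {e : Set (Point d)}, Df e →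
      e ⊆ (sys hG).dom [fw (.push P)] →
      (∀ e', Df e' → e' ⊆ (sys hG).wimg [fw (.push P)] e → Rw (sys hG) Df R e' (innerW v) []) →
      Rw (sys hG) Df R e (innerW v) [] := by
    intro P hP e he hd hnext
    refine Rw.descend C.laws hd (innerW_past C _ (fun i => sub_inner_push i P hP) he v ?_)
      (hnext _ (C.laws.wimg_df he) subset_rfl)
    refine Sys.dom_append.2 ⟨dom_innerW v e, ?_⟩
    rintro y ⟨x, hx, hxy⟩
    rw [run_innerW, hv, mul_one] at hxy
    subst hxy
    exact hd hx
  have hC : ∀ {e : Set (Point d)}, Df e → (∀ x ∈ e, x.tag = true) →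
      Rw (sys hG) Df R e (innerW v) [] := by
    intro e he hes
    refine pull .omC (by simp) he ?_ fun e' he' hs => law_finC C hv he' ?_
    · rintro ⟨s, σ, b, w, g, h⟩ hx
      obtain rfl : b = true := hes _ hx
      exact ⟨_, Sys.run_singleton.2 ⟨s, σ, w, g, h, rfl, rfl⟩⟩
    · intro y hy
      obtain ⟨x, -, hxy⟩ := hs hy
      obtain ⟨s, σ, w, g, h, -, rfl⟩ := Sys.run_singleton.1 hxy
      rw [mem_finC]
      exact ⟨rfl, rfl, rfl⟩
  have hT : ∀ {e : Set (Point d)}, Df e → e ⊆ (sys hG).dom [fw (.push .tMap)] →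
      Rw (sys hG) Df R e (innerW v) [] := by
    intro e he hes
    refine pull .tMap (by simp) he hes fun e' he' hs => hC he' fun y hy => ?_
    obtain ⟨x, -, hxy⟩ := hs hy
    obtain ⟨c, g, -, rfl⟩ := Sys.run_singleton.1 hxy
    rfl
  have hD : ∀ {e : Set (Point d)}, Df e → (∀ x ∈ e, x.tag = false) →
      Rw (sys hG) Df R e (innerW v) [] := by
    intro e he hes
    refine pull .omD (by simp) he ?_ fun e' he' hs => hT he' ?_
    · rintro ⟨s, σ, b, w, g, h⟩ hx
      obtain rfl : b = false := hes _ hx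
      exact ⟨_, Sys.run_singleton.2 ⟨s, σ, w, g, h, rfl, rfl⟩⟩
    · intro y hy
      obtain ⟨x, -, hxy⟩ := hs hy
      obtain ⟨s, σ, w, g, h, -, rfl⟩ := Sys.run_singleton.1 hxy
      exact ⟨_, Sys.run_singleton.2 ⟨_, _, rfl, rfl⟩⟩
  have htag := C.laws.dom_df [fw (.gid .tag)]
  refine Rw.split C.laws he htag (hC (C.laws.inter _ _ he htag) ?_)
    (hD (C.laws.diff _ _ he htag) ?_)
  · rintro x ⟨-, y, hy⟩
    exact ((run_gid _ true x y).1 (Sys.run_singleton.1 hy)).2
  · rintro x ⟨-, hx⟩
    by_contra hb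
    exact hx ⟨x, Sys.run_singleton.2 ((run_gid _ true x x).2 ⟨rfl, show x.tag = true by simpa using hb⟩)⟩

end Vale.Agent.P193.Core.Loops
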