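import Vale.Agent.P193.Full.Core.Facts.Gens
import Vale.Agent.P193.Full.Core.Loops.Words

/-! The alphabet of signed generators of the core model. -/

namespace Vale.Agent.P193.Core.Loops

open Vale.Agent.P193.Loops Facts

set_option linter.unusedSectionVars false

variable (d : Data)

/-- The idempotent generators. -/
inductive GidK where
  | st (s : State d)
  | zOne
  | zFront (s : Ltr d × Bool)
  | hOne
  | tag
  | clean
  | gOne
  | kSet

/-- Generators of the outer group. -/
inductive OGen where
  | base (k : d.subGens)
  | left (a : Ltr d)
  | right (a : Ltr d)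

/-- The pushes. -/
inductive PushK where
  | theta
  | omC
  | omD
  | omK
  | tMap
  deriving DecidableEq

/-- The generators. -/
inductive Atom where
  | gid (k : GidK d)
  | outer (a : OGen d)
  | inner (i : Fin d.n)
  | u (j : Fin 3)
  | edge (e : {e : Edge d // e.OK})
  | push (P : PushK)

/-- Signed generators. -/
abbrev Letter := Atom d × Bool

variable {d}

/-- The element of a generator of the outer group. -/
def OGen.val : OGen d → Outer d
  | .base k => (k.1, 1, 1)
  | .left a => (1, FreeGroup.of a, 1)
  | .right a => (1, 1, FreeGroup.of a)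

variable [DecidableEq d.M.A]

/-- The set of an idempotent generator. -/
def GidK.set : GidK d → Set (Point d)
  | .st s => atS s
  | .zOne => zOneS
  | .zFront s => zFrontS s
  | .hOne => hOneS
  | .tag => tagS
  | .clean => cleanS
  | .gOne => gOneS
  | .kSet => kOneS

/-- The graph of a push. -/
def PushK.graph : PushK → Set (Point d × Point d)
  | .theta => thetaG
  | .omC => omCG
  | .omD => omDG
  | .omK => omKG
  | .tMap => tG

/-- The graph of a generator. -/
def Atom.graph : Atom d → Set (Point d × Point d)
  | .gid k => Vale.Agent.P193.gid k.set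
  | .outer a => hT a.val
  | .inner i => gT (d.gen i)
  | .u j => uG j
  | .edge e => edgeG e.1 e.2
  | .push P => P.graph

theorem gen_atom : ∀ a : Atom d, Gen d a.graph
  | .gid (.st s) => gen_atS s
  | .gid .zOne => gen_zOneS
  | .gid (.zFront s) => gen_zFrontS s
  | .gid .hOne => gen_hOneS
  | .gid .tag => gen_tagS
  | .gid .clean => gen_cleanS
  | .gid .gOne => gen_gOneS
  | .gid .kSet => gen_kOneS
  | .outer (.base k) => gen_hT₀ k.1 k.2
  | .outer (.left a) => gen_hT₁ a
  | .outer (.right a) => gen_hT₂ a
  | .inner i => gen_gT i
  | .u j => gen_uG j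
  | .edge e => gen_edgeG e.1 e.2
  | .push .theta => gen_thetaG
  | .push .omC => gen_omCG
  | .push .omD => gen_omDG
  | .push .omK => gen_omKG
  | .push .tMap => gen_tG

theorem isPB_atom (hG : Good d) (a : Atom d) : IsPB a.graph := Gen.isPB hG (gen_atom a)

/-- The graph of a signed generator. -/
def Letter.graph : Letter d → Set (Point d × Point d)
  | (a, true) => a.graph
  | (a, false) => ginv a.graph

/-- The inverse letter. -/
def Letter.flip (i : Letter d) : Letter d := (i.1, !i.2)

/-- The system of signed generators. -/
noncomputable def sys (hG : Good d) : Sys (Point d) (Letter d) where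
  g := Letter.graph
  pb := by
    rintro ⟨a, _ | _⟩
    · exact ⟨fun x y z h h' => (isPB_atom hG a).2 _ _ _ h h',
        fun x y z h h' => (isPB_atom hG a).1 _ _ _ h h'⟩
    · exact isPB_atom hG a
  inv := Letter.flip
  g_inv := by
    rintro ⟨a, _ | _⟩ <;> rfl

/-- A forward letter. -/
def fw (a : Atom d) : Letter d := (a, true)

/-- A backward letter. -/
def bw (a : Atom d) : Letter d := (a, false)

end Vale.Agent.P193.Core.Loops
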