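import Vale.Agent.P193.Full.Core.Loops.Words

/-! Moving words past each other, transporting trivial loops, finite covers. -/

namespace Vale.Agent.P193.Loops

variable {S ι : Type} {K : Sys S ι} {Df : Set S → Prop}
  {R : Set S → List ι → List ι → Prop} (L : Laws K Df R)

include L

namespace Rw

variable {e : Set S} {a u u' : List ι}

/-- A word moves past a loop that is trivial further on. -/
theorem descend (ha : e ⊆ K.dom a) (h : Rw K Df R e (u ++ a) (a ++ u'))
    (hu : Rw K Df R (K.wimg a e) u' []) : Rw K Df R e u [] := by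
  have he := h.df
  have hue : e ⊆ K.dom u := (Sys.dom_append.1 h.left).1
  have h1 : Rw K Df R e (u ++ a) a := by
    refine h.trans L ?_
    simpa using Rw.front L he ha hu
  have hd : e ⊆ K.dom ((u ++ a) ++ K.winv a) := fun x hx => by
    obtain ⟨y, hy, hy'⟩ := h1.same x hx
    exact ⟨x, Sys.run_append.2 ⟨y, hy, Sys.run_inv.2 hy'⟩⟩
  have h2 : Rw K Df R e ((u ++ a) ++ K.winv a) (a ++ K.winv a) := h1.back L hd
  have h3 : Rw K Df R e (u ++ (a ++ K.winv a)) (u ++ []) := by
    refine Rw.front L he hue (Rw.cancel_word L (L.wimg_df he) ?_)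
    exact (Sys.dom_append.1 h.left).2
  rw [List.append_nil] at h3
  rw [← List.append_assoc] at h3
  exact (Rw.symm L h3).trans L (h2.trans L (Rw.cancel_word L he ha))

/-- Cancel a common end. -/
theorem strip (h : Rw K Df R e (u ++ a) a) : Rw K Df R e u [] :=
  Rw.descend L h.right (u' := []) (by simpa using h)
    (Rw.refl L (L.wimg_df h.df) fun x _ => ⟨x, rfl⟩)

/-- Letters that move past a word one at a time move past it together. -/
theorem slide {X : Type} (f : X → List ι) (φ : X → List ι)
    (hx : ∀ x e, Df e → e ⊆ K.dom (f x ++ a) → Rw K Df R e (f x ++ a) (a ++ φ x))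
    (he : Df e) (l : List X) (hd : e ⊆ K.dom (l.flatMap f ++ a)) :
    Rw K Df R e (l.flatMap f ++ a) (a ++ l.flatMap φ) := by
  induction l generalizing e with
  | nil => simpa using Rw.refl L he (by simpa using hd)
  | cons x l ih =>
    rw [List.flatMap_cons, List.flatMap_cons, List.append_assoc] at *
    have h1 : Rw K Df R e (f x ++ (l.flatMap f ++ a)) (f x ++ (a ++ l.flatMap φ)) :=
      Rw.front L he (Sys.dom_append.1 hd).1 (ih (L.wimg_df he) (Sys.dom_append.1 hd).2)
    refine h1.trans L ?_
    have h2 := h1.right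
    rw [← List.append_assoc] at h2 ⊢
    rw [← List.append_assoc a]
    exact (hx x e he (Sys.dom_append.1 h2).1).back L h2

/-- A word moves past letters one at a time, hence past a list of them. -/
theorem slide' {X : Type} (f : X → List ι) (φ : X → List ι)
    (hx : ∀ x e, Df e → e ⊆ K.dom (a ++ f x) → Rw K Df R e (a ++ f x) (φ x ++ a))
    (he : Df e) (l : List X) (hd : e ⊆ K.dom (a ++ l.flatMap f)) :
    Rw K Df R e (a ++ l.flatMap f) (l.flatMap φ ++ a) := by
  induction l generalizing e with
  | nil => simpa using Rw.refl L he (by simpa using hd)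
  | cons x l ih =>
    rw [List.flatMap_cons, List.flatMap_cons] at *
    rw [← List.append_assoc] at hd ⊢
    have h1 := (hx x e he (Sys.dom_append.1 hd).1).back L hd
    refine h1.trans L ?_
    have h2 := h1.right
    rw [List.append_assoc] at h2 ⊢
    rw [List.append_assoc]
    exact Rw.front L he (Sys.dom_append.1 h2).1 (ih (L.wimg_df he) (Sys.dom_append.1 h2).2)

end Rw

/-- A congruence that holds on every piece of a finite cover holds on the whole. -/
theorem Laws.cover {ν : Type} (P : ν → Set S) (hP : ∀ k, Df (P k)) {u v : List ι} :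
    ∀ (l : List ν) (e : Set S), Df e → (∀ k ∈ l, Rw K Df R (e ∩ P k) u v) →
      (∀ e', Df e' → e' ⊆ e → (∀ k ∈ l, Disjoint e' (P k)) → Rw K Df R e' u v) →
      Rw K Df R e u v
  | [], e, he, _, h => h e he subset_rfl (by simp)
  | k :: l, e, he, h1, h => by
    refine Rw.split L he (hP k) (h1 k List.mem_cons_self) ?_
    refine Laws.cover P hP l _ (L.diff _ _ he (hP k)) (fun j hj => ?_) fun e' he' hs hd => ?_
    · refine Rw.mono L (L.inter _ _ (L.diff _ _ he (hP k)) (hP j)) ?_
        (h1 j (List.mem_cons_of_mem _ hj))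
      exact Set.inter_subset_inter_left _ Set.sdiff_subset
    · refine h e' he' (hs.trans Set.sdiff_subset) fun j hj => ?_
      rcases List.mem_cons.1 hj with rfl | hj
      exacts [Set.disjoint_left.2 fun x hx => (hs hx).2, hd j hj]

end Vale.Agent.P193.Loops
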