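import Vale.Agent.P193.Full.Core.Loops.All
import Vale.Agent.P193.Full.Core.Loops.Bridge.Main
import Vale.Agent.P193.Full.Core.Calculus

/-! The loop hypothesis of the map calculus holds eventually in the core instance. -/

namespace Vale.Agent.P193.Core.Inst

open Calc

variable (d : Data) [DecidableEq d.M.A]

/-- Eventually the loops of the core setup hold. -/
theorem loopsPart : LoopsPart d := by
  intro hG F hF hp hav
  refine (Loops.ev_bridge hG hF hp hav).mono fun M h Φ hB => ?_
  obtain ⟨Df, R, rfl, C, hfin⟩ := h Φ hB
  exact hfin (Loops.allLoops_def (D := Φ.setup hp hav) (fun k => ⟨k.1, rfl⟩) C)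

end Vale.Agent.P193.Core.Inst
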