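import Vale.Agent.P193.Full.Core.Loops.Commute
import Vale.Agent.P193.Full.Core.Legit

/-! The certified value at the shortest legit offset, as a rule. -/

namespace Vale.Agent.P193.Core.Loops

open Vale.Agent.P193.Loops Facts

set_option linter.unusedSectionVars false

variable {d : Data} [DecidableEq d.M.A] {hG : Good d}

/-- The reversed word with opposite signs. -/
def revO (l : List (OGen d × Bool)) : List (OGen d × Bool) :=
  (l.map fun p => (p.1, !p.2)).reverse

theorem revO_prod (l : List (OGen d × Bool)) :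
    ((revO l).map OGen.sval).prod = ((l.map OGen.sval).prod)⁻¹ := by
  rw [List.prod_inv_reverse, revO, List.map_reverse, List.map_map, List.map_map]
  congr 2
  exact List.map_congr_left fun p _ => by obtain ⟨p, _ | _⟩ := p <;> simp [OGen.sval]

/-- The outer element of the shortest true offset. -/
def cTrue : Outer d :=
  (1, FreeGroup.mk [((d.M.head true, false), true), ((d.M.last, false), true)], 1)

theorem cTrue_eq : (cTrue (d := d)).2.1 = legit [] true := rfl

/-- The tests defining the domain of the first rule. -/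
noncomputable def testP (hG : Good d) : List (Letter d) :=
  testW [.tag, .clean, .zOne] ++ outerW (revO (ow hG cTrue)) ++ testW [.hOne] ++
    outerW (ow hG cTrue)

theorem run_testP (x y : Point d) :
    (sys hG).Run (testP hG) x y ↔
      x = y ∧ x.tag = true ∧ (x.st = .guess ∧ clean d x.σ) ∧ zval d x = 1 ∧ x.h = cTrue := by
  simp only [testP, Sys.run_append, run_testW, run_outerW, revO_prod, ow_prod,
    List.forall_mem_cons, List.not_mem_nil, IsEmpty.forall_iff, implies_true, and_true]
  constructor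
  · rintro ⟨z, ⟨z', ⟨z'', ⟨rfl, h1, h2, h3⟩, rfl⟩, rfl, h4⟩, rfl⟩
    have h4' : x.h = cTrue := mul_inv_eq_one.1 h4
    refine ⟨?_, h1, h2, h3, h4'⟩
    simp
  · rintro ⟨rfl, h1, h2, h3, h4⟩
    refine ⟨_, ⟨_, ⟨x, ⟨rfl, h1, h2, h3⟩, rfl⟩, rfl, ?_⟩, by simp⟩
    show x.h * cTrue⁻¹ = 1
    rw [h4, mul_inv_cancel]

theorem proj_one (j : Fin 3) : proj j (1 : Inner d) = 1 := by
  match j with
  | 0 => rfl
  | 1 => rfl
  | 2 => rfl

theorem uval_one (p : Fin 3 × Bool) : uval p (1 : Inner d) = 1 := by
  simp [uval, proj_one]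

theorem proj_prod (m : Inner d) : proj 0 m * proj 1 m * proj 2 m = m := by
  simp [proj]

theorem guessVal_cTrue (x : Point d) (h1 : x.st = .guess ∧ clean d x.σ) (h2 : zval d x = 1)
    (h3 : x.h = cTrue) (hG : Good d) : guessVal d x.σ = 1 := by
  have ho : offset d x.σ = legit [] true := by
    have h2' := h2
    simp only [zval, h3] at h2'
    rw [show (cTrue (d := d)).2.2 = 1 from rfl, mul_one, inv_mul_eq_one] at h2'
    exact h2'.symm.trans cTrue_eq
  simpa using (legit_path hG x.σ h1.1 h1.2 [] true ho).2 rfl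

variable {Df : Set (Point d) → Prop}
  {R : Set (Point d) → List (Letter d) → List (Letter d) → Prop} (C : Ctx hG Df R)

include C

/-- A test may be dropped. -/
theorem drop_test (k : GidK d) (b : Bool) {e : Set (Point d)} (he : Df e)
    (hd : e ⊆ (sys hG).dom [(.gid k, b)]) : Rw (sys hG) Df R e [(.gid k, b)] [] := by
  refine C.use (small_le (by simp)) (small_le (by simp)) (fun x y hxy => ?_) he hd
  obtain ⟨z, hz, rfl⟩ := hxy
  exact ((run_gid k b x z).1 hz).1

/-- The components do nothing at the shortest true offset. -/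
theorem rule1 (p : Fin 3 × Bool) {e : Set (Point d)} (he : Df e)
    (hs : ∀ x ∈ e, x.tag = true ∧ (x.st = .guess ∧ clean d x.σ) ∧ zval d x = 1 ∧ x.h = cTrue) :
    Rw (sys hG) Df R e [uL p] [] := by
  have hlen : (testP hG ++ [uL p]).length ≤ bound hG := by
    simp only [testP, List.length_append, testW, outerW, revO, List.length_map, List.length_cons,
      List.length_nil, List.length_reverse]
    unfold bound cTrue
    omega
  have hd : e ⊆ (sys hG).dom (testP hG ++ [uL p]) := fun x hx => by
    obtain ⟨h1, h2, h3, h4⟩ := hs x hx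
    exact ⟨_, Sys.run_append.2 ⟨x, (run_testP x x).2 ⟨rfl, h1, h2, h3, h4⟩,
      Sys.run_singleton.2 ((run_u p _ _).2 ⟨h2.1, h1, rfl⟩)⟩⟩
  refine Rw.trans C.laws (Rw.symm C.laws (C.use (v := [uL p]) hlen (small_le (by simp)) ?_ he hd))
    (C.use hlen (small_le (by simp)) ?_ he hd)
  · intro x y hxy
    obtain ⟨z, hz, hu⟩ := Sys.run_append.1 hxy
    obtain rfl := ((run_testP x z).1 hz).1
    exact hu
  · intro x y hxy
    obtain ⟨z, hz, hu⟩ := Sys.run_append.1 hxy
    obtain ⟨rfl, -, h2, h3, h4⟩ := (run_testP x z).1 hz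
    obtain ⟨-, -, rfl⟩ := (run_u p _ _).1 (Sys.run_singleton.1 hu)
    simp [Sys.Run, guessVal_cTrue x h2 h3 h4 hG, uval_one]

end Vale.Agent.P193.Core.Loops
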