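import Vale.Agent.P193.Full.Core.Loops.Ctx
import Vale.Agent.P193.Full.Core.Loops.Moves

/-! How the letters act. -/

namespace Vale.Agent.P193.Core.Loops

open Vale.Agent.P193.Loops Facts

set_option linter.unusedSectionVars false

variable {d : Data} [DecidableEq d.M.A] {hG : Good d}

theorem run_gid (k : GidK d) (b : Bool) (x y : Point d) :
    (x, y) ∈ (sys hG).g (.gid k, b) ↔ x = y ∧ x ∈ k.set := by
  cases b
  · show (y = x ∧ y ∈ k.set) ↔ _
    constructor <;> rintro ⟨rfl, h⟩ <;> exact ⟨rfl, h⟩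
  · rfl

/-- A word of tests. -/
def testW (l : List (GidK d)) : List (Letter d) := l.map fun k => fw (.gid k)

theorem run_testW (l : List (GidK d)) (x y : Point d) :
    (sys hG).Run (testW l) x y ↔ x = y ∧ ∀ k ∈ l, x ∈ k.set := by
  induction l generalizing x with
  | nil => simp [testW, Sys.Run]
  | cons k l ih =>
    constructor
    · rintro ⟨z, hz, h⟩
      obtain ⟨rfl, hk⟩ := (run_gid k true x z).1 hz
      obtain ⟨rfl, hl⟩ := (ih _).1 h
      exact ⟨rfl, List.forall_mem_cons.2 ⟨hk, hl⟩⟩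
    · rintro ⟨rfl, h⟩
      obtain ⟨hk, hl⟩ := List.forall_mem_cons.1 h
      exact ⟨x, (run_gid k true x x).2 ⟨rfl, hk⟩, (ih _).2 ⟨rfl, hl⟩⟩

theorem dom_testW (l : List (GidK d)) :
    (sys hG).dom (testW l) = {x | ∀ k ∈ l, x ∈ k.set} := by
  ext x
  exact ⟨fun ⟨y, h⟩ => ((run_testW l x y).1 h).2, fun h => ⟨x, (run_testW l x x).2 ⟨rfl, h⟩⟩⟩

/-- The guessed value used by a signed letter of a component. -/
def uval (p : Fin 3 × Bool) (m : Inner d) : Inner d :=
  if p.2 then proj p.1 m else (proj p.1 m)⁻¹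

/-- A signed letter of a component. -/
def uL (p : Fin 3 × Bool) : Letter d := (.u p.1, p.2)

theorem run_u (p : Fin 3 × Bool) (x y : Point d) :
    (x, y) ∈ (sys hG).g (uL p) ↔
      x.st = .guess ∧ x.tag = true ∧ y = { x with g := x.g * uval p (guessVal d x.σ) } := by
  obtain ⟨j, _ | _⟩ := p
  · show (y.st = .guess ∧ y.tag = true ∧ x = _) ↔ _
    constructor
    · rintro ⟨h1, h2, h⟩
      simp only at h
      subst h
      exact ⟨h1, h2, by simp [uval]⟩
    · rintro ⟨h1, h2, rfl⟩
      exact ⟨h1, h2, by simp [uval]⟩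
  · exact Iff.rfl

theorem run_inner (i : Fin d.n) (x y : Point d) :
    (x, y) ∈ (sys hG).g (fw (.inner i)) ↔ y = { x with g := x.g * d.gen i } := Iff.rfl

theorem run_edge (e : {e : Edge d // e.OK}) (x y : Point d) :
    (x, y) ∈ (sys hG).g (fw (.edge e)) ↔ ∃ σ b w g h, x = ⟨e.1.tgt, σ, b, w, g, h⟩ ∧
      y = ⟨e.1.src, .cons e.1 e.2 σ, b, w, g, (1, e.1.pval, e.1.qval) * h⟩ := Iff.rfl

/-- The outer element that an edge multiplies on. -/
def edgeElt (e : Edge d) : Outer d := (1, e.pval, e.qval)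

/-- The forward word of a path. -/
def liftW : {s : State d} → Path d s → List (Letter d)
  | _, .nil => []
  | _, .cons e he σ => liftW σ ++ [fw (.edge ⟨e, he⟩)]

/-- The outer element of a path. -/
def pq : {s : State d} → Path d s → Outer d
  | _, .nil => 1
  | _, .cons e _ σ => edgeElt e * pq σ

theorem run_liftW {s : State d} (σ : Path d s) (b : Bool) (w : Wd d b) (g : Inner d)
    (h : Outer d) :
    (sys hG).Run (liftW σ) ⟨.fin, .nil, b, w, g, h⟩ ⟨s, σ, b, w, g, pq σ * h⟩ := by
  induction σ with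
  | nil => simp [liftW, pq, Sys.Run]
  | cons e he σ ih =>
    refine Sys.run_append.2 ⟨_, ih, Sys.run_singleton.2 ⟨σ, b, w, g, pq σ * h, rfl, ?_⟩⟩
    simp [pq, edgeElt, mul_assoc]

theorem zval_pq {s : State d} (σ : Path d s) :
    (pq σ).2.1⁻¹ * offset d σ * (pq σ).2.2 = 1 := by
  induction σ with
  | nil => simp [pq, offset]
  | cons e he σ ih =>
    have : (pq σ).2.1⁻¹ * e.pval⁻¹ * (e.pval * offset d σ * e.qval⁻¹) * (e.qval * (pq σ).2.2) =
        1 := by rw [← ih]; group
    simpa [pq, edgeElt, offset] using this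

/-- The word of a single element of the outer group. -/
noncomputable def otW (hG : Good d) (t : Outer d) : List (Letter d) := outerW (ow hG t)

theorem run_otW (t : Outer d) (x y : Point d) :
    (sys hG).Run (otW hG t) x y ↔ y = { x with h := x.h * t } := by
  rw [otW, run_outerW, ow_prod]

theorem dom_outerW (l : List (OGen d × Bool)) (e : Set (Point d)) :
    e ⊆ (sys hG).dom (outerW l) := fun x _ => ⟨_, (run_outerW hG l x _).2 rfl⟩

theorem dom_innerW (l : List (Fin d.n)) (e : Set (Point d)) :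
    e ⊆ (sys hG).dom (innerW l) := fun x _ => ⟨_, (run_innerW hG l x _).2 rfl⟩

theorem run_push (P : PushK) (x y : Point d) :
    (x, y) ∈ (sys hG).g (fw (.push P)) ↔ (x, y) ∈ P.graph (d := d) := Iff.rfl

end Vale.Agent.P193.Core.Loops
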