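import Vale.Agent.P193.Full.Core.Loops.Const
import Vale.Agent.P193.Full.Core.Loops.Flats

/-! Flat loops reduce to words in inner generators and components, which are trivial off long
runs of guessed letters. -/

namespace Vale.Agent.P193.Core.Loops

open Vale.Agent.P193.Loops Facts

set_option linter.unusedSectionVars false

variable {d : Data} [DecidableEq d.M.A] {hG : Good d}

theorem run_ux_list (l : List (UX d)) {p q : Point d} (h : (sys hG).Run (l.map uxL) p q) :
    q = { p with g := p.g * (l.map (uxVal (guessVal d p.σ))).prod } ∧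
      ∀ j b, (.inr j, b) ∈ l → p.st = .guess ∧ p.tag = true := by
  induction l generalizing p with
  | nil =>
    rw [show p = q from h]
    simp
  | cons x l ih =>
    obtain ⟨z, hz, hr⟩ := h
    obtain ⟨hx, rfl⟩ := (run_ux x p z).1 hz
    obtain ⟨rfl, h2⟩ := ih hr
    refine ⟨by simp [mul_assoc], fun j b hm => ?_⟩
    rcases List.mem_cons.1 hm with rfl | hm
    exacts [hx j b rfl, h2 j b hm]

theorem loop_prod {l : List (UX d)} {p : Point d} (h : (sys hG).Run (l.map uxL) p p) :
    (l.map (uxVal (guessVal d p.σ))).prod = 1 := by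
  have := congrArg Point.g (run_ux_list l h).1
  simpa using this.symm

theorem sub_ux_outer (x : UX d) (a : OGen d × Bool) :
    Sub hG [uxL x, (.outer a.1, a.2)] [(.outer a.1, a.2), uxL x] := by
  rintro p q ⟨z, hz, z', hz', rfl⟩
  obtain ⟨h1, rfl⟩ := (run_ux x p z).1 hz
  rw [run_outer hG a] at hz'
  subst hz'
  exact ⟨_, (run_outer hG a _ _).2 rfl, _, (run_ux x _ _).2 ⟨h1, rfl⟩, rfl⟩

theorem sub_edge_inl (e : {e : Edge d // e.OK}) (i : Fin d.n) (b : Bool) :
    Sub hG [fw (.edge e), uxL (.inl i, b)] [uxL (.inl i, b), fw (.edge e)] := by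
  rintro x y ⟨z, hz, z', hz', rfl⟩
  obtain ⟨σ, t, w, g, h, rfl, rfl⟩ := (run_edge e _ _).1 hz
  obtain ⟨-, rfl⟩ := (run_ux _ _ z').1 hz'
  refine ⟨_, (run_ux (.inl i, b) _ _).2 ⟨by simp, rfl⟩, _,
    (run_edge e _ _).2 ⟨σ, t, w, _, h, rfl, ?_⟩, rfl⟩
  cases b <;> simp [uxVal]

/-- Guessing points of the tag without point predicate. -/
def gcW : List (Letter d) := testW [.st .guess, .tag]

theorem mem_gcW (x : Point d) :
    x ∈ (sys hG).dom gcW ↔ x.st = .guess ∧ x.tag = true := by
  rw [gcW, dom_testW]
  simp [GidK.set, atS, tagS]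

theorem gcW_flat : Flatset ((sys hG).dom (gcW (d := d))) :=
  ⟨fun p hp => (mem_gcW p).1 hp,
    fun p hp _ => (mem_gcW (hG := hG) _).2 ((mem_gcW (hG := hG) p).1 hp)⟩

/-- A list of letters without components. -/
def NoU (l : List (UX d)) : Prop := ∀ j b, (.inr j, b) ∉ l

variable {Df : Set (Point d) → Prop}
  {R : Set (Point d) → List (Letter d) → List (Letter d) → Prop} (C : Ctx hG Df R)

include C

/-- Flat words are an outer word followed by inner generators and components. -/
theorem flat_normal (t : List (Letter d)) (ht : ∀ i ∈ t, Flat i) {e : Set (Point d)} (he : Df e)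
    (hd : e ⊆ (sys hG).dom t) : ∃ (lo : List (OGen d × Bool)) (lx : List (UX d)),
      Rw (sys hG) Df R e t (outerW lo ++ lx.map uxL) := by
  induction t generalizing e with
  | nil => exact ⟨[], [], Rw.refl C.laws he hd⟩
  | cons i t ih =>
    obtain ⟨hdi, hdt⟩ := Sys.dom_append.1 (show e ⊆ (sys hG).dom ([i] ++ t) from hd)
    obtain ⟨lo, lx, h⟩ := ih (fun j hj => ht j (List.mem_cons_of_mem _ hj)) (C.laws.wimg_df he) hdt
    have hf : Rw (sys hG) Df R e ([i] ++ t) ([i] ++ (outerW lo ++ lx.map uxL)) :=
      Rw.front C.laws he hdi h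
    obtain ⟨hf1, hf2⟩ := ht i List.mem_cons_self
    -- an inner generator or a component moves behind the outer word
    have swap : ∀ x : UX d, uxL x = i →
        ∃ (lo : List (OGen d × Bool)) (lx : List (UX d)),
          Rw (sys hG) Df R e (i :: t) (outerW lo ++ lx.map uxL) := by
      rintro x rfl
      refine ⟨lo, x :: lx, hf.trans C.laws ?_⟩
      have e1 : outerW lo = lo.flatMap fun a => [(Atom.outer a.1, a.2)] := by
        rw [outerW, ← List.flatMap_pure_eq_map]; rfl
      have hd' := hf.right
      rw [← List.append_assoc] at hd' ⊢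
      rw [List.map_cons, show uxL x :: lx.map uxL = [uxL x] ++ lx.map uxL from rfl,
        ← List.append_assoc]
      refine Rw.back C.laws ?_ hd'
      rw [e1] at hd' ⊢
      exact Rw.slide' C.laws (a := [uxL x]) (fun a : OGen d × Bool => [(Atom.outer a.1, a.2)])
        (fun a : OGen d × Bool => [(Atom.outer a.1, a.2)])
        (fun a e' he' hde => C.use (small_le (by simp)) (small_le (by simp)) (sub_ux_outer x a)
          he' hde) he lo (Sys.dom_append.1 hd').1
    obtain ⟨a, b⟩ := i
    cases a with
    | gid k =>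
      refine ⟨lo, lx, hf.trans C.laws ?_⟩
      simpa using (drop_test C k b he hdi).back C.laws hf.right
    | outer a => exact ⟨(a, b) :: lo, lx, by simpa [outerW] using hf⟩
    | inner k => exact swap (.inl k, b) rfl
    | u j => exact swap (.inr j, b) rfl
    | edge E => exact absurd rfl (hf1 E)
    | push P => exact absurd rfl (hf2 P)

/-- Words without components are positive inner words. -/
theorem toPos (l : List (UX d)) (hl : NoU l) {e : Set (Point d)} (he : Df e) :
    ∃ v : List (Fin d.n), (∀ m, (v.map d.gen).prod = (l.map (uxVal m)).prod) ∧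
      Rw (sys hG) Df R e (l.map uxL) (innerW v) := by
  induction l generalizing e with
  | nil => exact ⟨[], fun _ => rfl, Rw.refl C.laws he fun x _ => ⟨x, rfl⟩⟩
  | cons x l ih =>
    have hdx : e ⊆ (sys hG).dom [uxL x] := fun p _ =>
      ⟨_, Sys.run_singleton.2 ((run_ux x p _).2 ⟨fun j b hx =>
        absurd (hx ▸ List.mem_cons_self) (hl j b), rfl⟩)⟩
    obtain ⟨v, hv, h⟩ := ih (fun j b hm => hl j b (List.mem_cons_of_mem _ hm)) (C.laws.wimg_df he)
    have hf : Rw (sys hG) Df R e ([uxL x] ++ l.map uxL) ([uxL x] ++ innerW v) :=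
      Rw.front C.laws he hdx h
    obtain ⟨i | j, b⟩ := x
    · cases b with
      | true =>
        exact ⟨i :: v, fun m => by simp [uxVal, hv m], by simpa [innerW, uxL, fw] using hf⟩
      | false =>
        refine ⟨iw hG (d.gen i)⁻¹ ++ v, fun m => by simp [uxVal, hv m, iw_prod], hf.trans C.laws ?_⟩
        rw [innerW_append]
        exact (inner_bw C i he).back C.laws hf.right
    · exact absurd List.mem_cons_self (hl j b)

/-- A loop without components is trivial. -/
theorem noU_loop {l : List (UX d)} (hl : NoU l) {e : Set (Point d)} (he : Df e)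
    (hloop : ∀ p ∈ e, (sys hG).Run (l.map uxL) p p) : Rw (sys hG) Df R e (l.map uxL) [] := by
  rcases e.eq_empty_or_nonempty with h0 | ⟨p, hp⟩
  · exact Rw.of_eq_empty C.laws h0
  obtain ⟨v, hv, h⟩ := toPos C l hl he
  exact h.trans C.laws (law_inner C ((hv _).trans (loop_prod (hloop p hp))) he)

/-- A loop above an edge is trivial once the loop it becomes below the edge is. -/
theorem via_edge (E : {e : Edge d // e.OK}) (φ : UX d → List (UX d))
    (hφ : ∀ x e', Df e' → e' ⊆ (sys hG).dom ([fw (.edge E)] ++ [uxL x]) →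
      Rw (sys hG) Df R e' ([fw (.edge E)] ++ [uxL x]) ((φ x).map uxL ++ [fw (.edge E)]))
    {l : List (UX d)} {e : Set (Point d)} (he : Df e)
    (hs : e ⊆ (sys hG).dom [bw (.edge E)])
    (hloop : ∀ p ∈ e, (sys hG).Run (l.map uxL) p p)
    (below : ∀ e', Df e' → e' ⊆ (sys hG).wimg [bw (.edge E)] e →
      (∀ p ∈ e', (sys hG).Run ((l.flatMap φ).map uxL) p p) →
      Rw (sys hG) Df R e' ((l.flatMap φ).map uxL) []) :
    Rw (sys hG) Df R e (l.map uxL) [] := by
  refine Rw.unfront C.laws (i := bw (.edge E)) (j := fw (.edge E)) rfl he hs ?_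
  set e' := (sys hG).wimg [bw (.edge E)] e with he'
  have he'd : Df e' := C.laws.wimg_df he
  have hback : ∀ p ∈ e', ∃ x ∈ e, (p, x) ∈ (sys hG).g (fw (.edge E)) := by
    rintro p ⟨x, hx, hxp⟩
    have hh := Sys.run_singleton.1 hxp
    exact ⟨x, hx, hh⟩
  have hd : e' ⊆ (sys hG).dom ([fw (.edge E)] ++ l.map uxL) := fun p hp => by
    obtain ⟨x, hx, hpx⟩ := hback p hp
    exact ⟨x, Sys.run_append.2 ⟨x, Sys.run_singleton.2 hpx, hloop x hx⟩⟩
  have e1 : ∀ l : List (UX d), l.map uxL = l.flatMap fun x => [uxL x] := fun l => by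
    rw [← List.flatMap_pure_eq_map]; rfl
  have hs1 : Rw (sys hG) Df R e' ([fw (.edge E)] ++ l.map uxL)
      ((l.flatMap φ).map uxL ++ [fw (.edge E)]) := by
    rw [e1 l, List.map_flatMap] at *
    exact Rw.slide' C.laws (a := [fw (.edge E)]) (fun x => [uxL x]) (fun x => (φ x).map uxL) hφ
      he'd l hd
  refine hs1.trans C.laws ?_
  have h0 : Rw (sys hG) Df R e' ((l.flatMap φ).map uxL) [] := by
    refine below e' he'd subset_rfl fun p hp => ?_
    obtain ⟨x, hx, hpx⟩ := hback p hp
    obtain ⟨y, hy1, hy2⟩ := hs1.same p hp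
    have := Sys.run_func hy1 (Sys.run_append.2 ⟨x, Sys.run_singleton.2 hpx, hloop x hx⟩)
    subst this
    obtain ⟨p', hp', hpy⟩ := Sys.run_append.1 hy2
    obtain rfl : p' = p := Sys.run_inj hpy (Sys.run_singleton.2 hpx)
    exact hp'
  rw [show ([fw (.edge E)] : List (Letter d)) ++ [] = [] ++ [fw (.edge E)] from rfl]
  exact h0.back C.laws hs1.right

omit C in
/-- A component moved back over a guessed letter, as a list. -/
noncomputable def backX (hG : Good d) (i : Fin d.n) : UX d → List (UX d)
  | (.inl k, b) => [(.inl k, b)]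
  | (.inr j, true) => posX (iw hG (proj j (d.gen i))) ++ [(.inr j, true)]
  | (.inr j, false) => [((.inr j, false) : UX d)] ++ posX (iw hG ((proj j (d.gen i))⁻¹))

omit C in
theorem posX_append_map (a b : List (UX d)) : (a ++ b).map (uxL (d := d)) = a.map uxL ++ b.map uxL :=
  List.map_append

/-- A loop is trivial off long runs of guessed letters. -/
theorem short_loop : ∀ (n : ℕ) (l : List (UX d)) {e : Set (Point d)}, Df e →
    e ⊆ (sys hG).dom gcW → (∀ p ∈ e, (sys hG).Run (l.map uxL) p p) →
    (∀ p ∈ e, ¬ ∃ v τ w g h, v.length = n ∧ p = gpt v τ w g h) →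
    Rw (sys hG) Df R e (l.map uxL) [] := by
  intro n
  induction n with
  | zero =>
    intro l e he hgc _ hno
    refine Rw.of_eq_empty C.laws (Set.eq_empty_of_forall_notMem fun p hp => hno p hp ?_)
    obtain ⟨h1, h2⟩ := (mem_gcW p).1 (hgc hp)
    obtain ⟨s, σ, b, w, g, h⟩ := p
    obtain rfl : s = .guess := h1
    obtain rfl : b = true := h2
    exact ⟨[], σ, w, g, h, rfl, rfl⟩
  | succ n ih =>
    intro l e he hgc hloop hno
    have : Finite {e : Edge d // e.OK} := (finite_edges (d := d)).to_subtype
    obtain ⟨edges, hedges⟩ : ∃ L : List {e : Edge d // e.OK}, ∀ E, E ∈ L := by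
      have := Fintype.ofFinite {e : Edge d // e.OK}
      exact ⟨Finset.univ.toList, fun E => by simp⟩
    refine C.laws.cover (fun E => (sys hG).dom [bw (.edge E)]) (fun E => C.laws.dom_df _) edges e
      he (fun E _ => ?_) fun e' he' hs hdis => ?_
    · have hpe : Df (e ∩ (sys hG).dom [bw (.edge E)]) := C.laws.inter _ _ he (C.laws.dom_df _)
      by_cases hL : ∃ i, E = ⟨_, Edge.OK.letter i⟩
      · obtain ⟨i, rfl⟩ := hL
        refine via_edge C _ (backX hG i) ?_ hpe Set.inter_subset_right
          (fun p hp => hloop p hp.1) ?_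
        · rintro ⟨k | j, b⟩ e' he' hde
          · exact C.use (small_le (by simp)) (small_le (by simp [backX])) (sub_edge_inl _ k b) he' hde
          · cases b with
            | true =>
              have hw : (backX hG i (.inr j, true)).map uxL ++ [edgeL i] =
                  backW hG i (j, true) ++ [edgeL i] := by
                rw [backX, List.map_append, posX_map]
                simp [backW, uxL, uL]
              exact hw ▸ C.use (small_le (by simp)) (backW_length i (j, true))
                (sub_letter_u i (j, true)) he' hde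
            | false =>
              have hw : (backX hG i (.inr j, false)).map uxL ++ [edgeL i] =
                  backW hG i (j, false) ++ [edgeL i] := by
                rw [backX, List.map_append, posX_map]
                simp [backW, uxL, uL]
              exact hw ▸ C.use (small_le (by simp)) (backW_length i (j, false))
                (sub_letter_u i (j, false)) he' hde
        · intro e' he' hsub hl'
          have src : ∀ p ∈ e', ∃ x ∈ e, (p, x) ∈ (sys hG).g (edgeL i) := by
            intro p hp
            obtain ⟨x, hx, hxp⟩ := hsub hp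
            have hh := Sys.run_singleton.1 hxp
            exact ⟨x, hx.1, hh⟩
          refine ih _ he' ?_ hl' ?_
          · intro p hp
            obtain ⟨x, hx, hpx⟩ := src p hp
            obtain ⟨σ, b, w, g, h, rfl, rfl⟩ := (run_edgeL i _ _).1 hpx
            obtain rfl : b = true := ((mem_gcW _).1 (hgc hx)).2
            rw [mem_gcW]
            exact ⟨rfl, rfl⟩
          · rintro p hp ⟨v, τ, w, g, h, hv, rfl⟩
            obtain ⟨x, hx, hpx⟩ := src _ hp
            have : x = gpt (i :: v) τ w g (letElt i * h) :=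
              ((sys hG).pb (edgeL i)).1 _ _ _ hpx ((run_edgeL i _ _).2 ⟨_, _, _, _, _, rfl, rfl⟩)
            exact hno x hx ⟨i :: v, τ, w, g, _, by simp [hv], this⟩
      · have hk : E.1.tgt ≠ .guess ∨ ∀ i, E.1.kind ≠ .letter i := by
          right
          intro i hk
          obtain ⟨E, hE⟩ := E
          cases hE with
          | letter j => exact hL ⟨j, rfl⟩
          | _ => simp at hk
        let φ : UX d → List (UX d) := fun x =>
          match x with
          | (.inl k, b) => [(.inl k, b)]
          | (.inr _, _) => []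
        refine via_edge C E φ ?_ hpe Set.inter_subset_right (fun p hp => hloop p hp.1)
          fun e' he' _ hl' => noU_loop C ?_ he' hl'
        · rintro ⟨k | j, b⟩ e' he' hde
          · exact C.use (small_le (by simp)) (small_le (by simp [φ])) (sub_edge_inl E k b) he' hde
          · exact C.use (u := [fw (.edge E), uL (j, b)]) (small_le (by simp))
              (small_le (by simp [φ])) (sub_exit_u (j, b) E hk) he' hde
        · intro j b hm
          obtain ⟨x, -, hx⟩ := List.mem_flatMap.1 hm
          obtain ⟨k | j', b'⟩ := x <;> simp [φ] at hx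
    · refine Rw.of_eq_empty C.laws (Set.eq_empty_of_forall_notMem fun p hp => ?_)
      obtain ⟨h1, -⟩ := (mem_gcW p).1 (hgc (hs hp))
      obtain ⟨s, σ, b, w, g, h⟩ := p
      simp only at h1
      cases σ with
      | nil => cases h1
      | cons e0 he0 σ0 =>
        refine Set.disjoint_left.1 (hdis ⟨e0, he0⟩ (hedges _)) hp
          ⟨⟨e0.tgt, σ0, b, w, g, (edgeElt e0)⁻¹ * h⟩, Sys.run_singleton.2 ?_⟩
        exact (run_edge (hG := hG) ⟨e0, he0⟩ ⟨e0.tgt, σ0, b, w, g, (edgeElt e0)⁻¹ * h⟩ _).2
          ⟨σ0, b, w, g, (edgeElt e0)⁻¹ * h, rfl, by simp [edgeElt, ← mul_assoc]⟩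

end Vale.Agent.P193.Core.Loops
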