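import Vale.Agent.P193.Full.Core.Loops.GroupLaw

/-! Translation words are congruent exactly when their products agree. -/

namespace Vale.Agent.P193.Core.Loops

open Vale.Agent.P193.Loops Facts

set_option linter.unusedSectionVars false

variable {d : Data} [DecidableEq d.M.A] {hG : Good d} {Df : Set (Point d) → Prop}
  {R : Set (Point d) → List (Letter d) → List (Letter d) → Prop} (C : Ctx hG Df R)

include C

/-- Two translation words with inverse products give congruences. -/
theorem eq_of_law {X M : Type} [Group M] (f : List X → List (Letter d))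
    (hf : ∀ a b, f (a ++ b) = f a ++ f b) (val : List X → M)
    (hv : ∀ a b, val (a ++ b) = val a * val b) (dom : ∀ a e, e ⊆ (sys hG).dom (f a))
    (word : M → List X) (hword : ∀ m, val (word m) = m)
    (law : ∀ a, val a = 1 → ∀ e, Df e → Rw (sys hG) Df R e (f a) [])
    {a b : List X} (hab : val a = val b) {e : Set (Point d)} (he : Df e) :
    Rw (sys hG) Df R e (f a) (f b) := by
  set c := word (val b)⁻¹
  have h1 : Rw (sys hG) Df R e (f a ++ f c) [] := by
    rw [← hf]
    exact law _ (by rw [hv, hword, hab, mul_inv_cancel]) e he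
  have h2 : Rw (sys hG) Df R e ((f a ++ f c) ++ f b) ([] ++ f b) :=
    h1.back C.laws (by rw [← hf, ← hf]; exact dom _ _)
  have h3 : Rw (sys hG) Df R e (f a ++ (f c ++ f b)) (f a ++ []) := by
    refine Rw.front C.laws he (dom a e) ?_
    rw [← hf]
    exact law _ (by rw [hv, hword, inv_mul_cancel]) _ (C.laws.wimg_df he)
  rw [List.append_nil, ← List.append_assoc] at h3
  exact (Rw.symm C.laws h3).trans C.laws h2

theorem inner_eq {a b : List (Fin d.n)} (hab : (a.map d.gen).prod = (b.map d.gen).prod)
    {e : Set (Point d)} (he : Df e) : Rw (sys hG) Df R e (innerW a) (innerW b) :=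
  eq_of_law C innerW (fun a b => List.map_append) (fun a => (a.map d.gen).prod)
    (fun a b => by simp) dom_innerW (iw hG) (iw_prod hG) (fun a ha e he => law_inner C ha he)
    hab he

/-- An outer word with trivial product is congruent to the empty word. -/
theorem law_outer {l : List (OGen d × Bool)} (hl : (l.map OGen.sval).prod = 1)
    {e : Set (Point d)} (he : Df e) : Rw (sys hG) Df R e (outerW l) [] := by
  let φ : OGen d × Bool → List (Fin d.n) := fun a => iw hG (toInner d (OGen.sval a))
  have e1 : ∀ l : List (OGen d × Bool),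
      outerW l = l.flatMap fun a => [(.outer a.1, a.2)] := fun l => by
    rw [outerW, ← List.flatMap_pure_eq_map]; rfl
  have e2 : l.flatMap (fun a => innerW (φ a)) = innerW (l.flatMap φ) := by
    simp [innerW, List.map_flatMap]
  have dth : ∀ e : Set (Point d), e ⊆ (sys hG).dom [fw (.push .theta)] :=
    fun e x _ => ⟨⟨.fin, .nil, false, .theta x.σ x.tag x.w x.g, toInner d x.h, 1⟩,
      Sys.run_singleton.2 (show (x, _) ∈ thetaG from rfl)⟩
  refine Rw.descend C.laws (dth e) (u' := innerW (l.flatMap φ)) ?_
    (law_inner C ?_ (C.laws.wimg_df he))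
  · rw [← e2, e1]
    refine Rw.slide C.laws _ (fun a => innerW (φ a)) (fun a e' he' hd => ?_) he l ?_
    · refine C.use (small_le (by simp)) ?_ (sub_outer_theta a) he' hd
      have := iw_length (hG := hG) (m := toInner d (OGen.sval a)) (Or.inr ⟨a, rfl⟩)
      simp [innerW, φ]
      omega
    · rw [← e1]
      exact Sys.dom_append.2 ⟨dom_outerW l e, dth _⟩
  · rw [List.map_flatMap]
    have : ∀ l : List (OGen d × Bool), (l.flatMap fun a => (φ a).map d.gen).prod =
        toInner d (l.map OGen.sval).prod := by
      intro l
      induction l with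
      | nil => simp
      | cons a l ih => simp [φ, iw_prod, ih]
    rw [this, hl, map_one]

theorem outer_eq {a b : List (OGen d × Bool)}
    (hab : (a.map OGen.sval).prod = (b.map OGen.sval).prod)
    {e : Set (Point d)} (he : Df e) : Rw (sys hG) Df R e (outerW a) (outerW b) :=
  eq_of_law C outerW (fun a b => List.map_append) (fun a => (a.map OGen.sval).prod)
    (fun a b => by simp) dom_outerW (ow hG) (ow_prod hG) (fun a ha e he => law_outer C ha he)
    hab he

/-- A backward inner letter is a positive word. -/
theorem inner_bw (i : Fin d.n) {e : Set (Point d)} (he : Df e) :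
    Rw (sys hG) Df R e [bw (.inner i)] (innerW (iw hG (d.gen i)⁻¹)) := by
  have hd : e ⊆ (sys hG).dom [bw (.inner i)] := fun x _ =>
    ⟨_, Sys.run_singleton.2 (show ({ x with g := x.g * (d.gen i)⁻¹ }, x) ∈ gT (d.gen i) by
      simp [gT])⟩
  have h1 : Rw (sys hG) Df R e ([bw (.inner i)] ++ innerW (i :: iw hG (d.gen i)⁻¹))
      ([bw (.inner i)] ++ []) :=
    Rw.front C.laws he hd
      (law_inner C (by simp [iw_prod]) (C.laws.wimg_df he))
  rw [List.append_nil] at h1
  refine (Rw.symm C.laws h1).trans C.laws ?_
  have hc : Rw (sys hG) Df R e ([bw (.inner i)] ++ [fw (.inner i)]) [] := by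
    simpa [Sys.winv, sys, Letter.flip, bw, fw] using Rw.cancel_word C.laws he hd
  have h2 := hc.back C.laws (b := innerW (iw hG (d.gen i)⁻¹)) (by
    intro x _
    obtain ⟨y, hy⟩ := h1.left (by assumption : x ∈ e)
    exact ⟨y, by simpa [innerW] using hy⟩)
  simpa [innerW] using h2

end Vale.Agent.P193.Core.Loops
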