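import Mathlib.GroupTheory.NoncommCoprod
import Vale.Agent.P193.Full.Core.Loops.Translations

/-! Words in inner generators and components on a set that ignores the inner coordinate form a
group in which the three components are separated. -/

namespace Vale.Agent.P193.Core.Loops

open Vale.Agent.P193.Loops Facts

set_option linter.unusedSectionVars false

variable {d : Data} [DecidableEq d.M.A] {hG : Good d}

/-- Signed inner generators and signed components. -/
abbrev UX (d : Data) := (Fin d.n ⊕ Fin 3) × Bool

/-- The letter of an `UX`. -/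
def uxL : UX d → Letter d
  | (.inl i, b) => (.inner i, b)
  | (.inr j, b) => (.u j, b)

/-- The element that a letter multiplies on, given the guessed value. -/
def uxVal (m : Inner d) : UX d → Inner d
  | (.inl i, true) => d.gen i
  | (.inl i, false) => (d.gen i)⁻¹
  | (.inr j, true) => proj j m
  | (.inr j, false) => (proj j m)⁻¹

theorem run_ux (x : UX d) (p q : Point d) :
    (p, q) ∈ (sys hG).g (uxL x) ↔
      (∀ j b, x = (.inr j, b) → p.st = .guess ∧ p.tag = true) ∧
        q = { p with g := p.g * uxVal (guessVal d p.σ) x } := by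
  obtain ⟨i | j, b⟩ := x
  · cases b
    · show (q, p) ∈ gT (d.gen i) ↔ _
      constructor
      · intro h
        simp only [gT, Set.mem_ofPred_eq] at h
        subst h
        exact ⟨by simp, by simp [uxVal]⟩
      · rintro ⟨-, rfl⟩
        simp [gT, uxVal]
    · show (p, q) ∈ gT (d.gen i) ↔ _
      exact ⟨fun h => ⟨by simp, h⟩, fun h => h.2⟩
  · show (p, q) ∈ (sys hG).g (uL (j, b)) ↔ _
    rw [run_u]
    have e : uval (j, b) (guessVal d p.σ) = uxVal (guessVal d p.σ) (.inr j, b) := by
      cases b <;> simp [uval, uxVal]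
    rw [e]
    exact ⟨fun ⟨a, c, h⟩ => ⟨fun _ _ _ => ⟨a, c⟩, h⟩,
      fun ⟨a, h⟩ => ⟨(a j b rfl).1, (a j b rfl).2, h⟩⟩

/-- Sets inside the guessing points of the tag without point predicate that ignore the inner
coordinate. -/
structure Flatset (E : Set (Point d)) : Prop where
  guess : ∀ p ∈ E, p.st = .guess ∧ p.tag = true
  ginv : ∀ p ∈ E, ∀ g', ({ p with g := g' } : Point d) ∈ E

theorem Flatset.img {E : Set (Point d)} (hE : Flatset E) (x : UX d) :
    (sys hG).wimg [uxL x] E = E := by
  ext q
  constructor
  · rintro ⟨p, hp, h⟩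
    rw [Sys.run_singleton, run_ux] at h
    rw [h.2]
    exact hE.ginv p hp _
  · intro hq
    refine ⟨{ q with g := q.g * (uxVal (guessVal d q.σ) x)⁻¹ }, hE.ginv q hq _, ?_⟩
    rw [Sys.run_singleton, run_ux]
    exact ⟨fun _ _ _ => hE.guess q hq, by simp⟩

theorem run_uxW (l : List (UX d)) {p : Point d} (hp : p.st = .guess ∧ p.tag = true) (q : Point d) :
    (sys hG).Run (l.map uxL) p q ↔
      q = { p with g := p.g * (l.map (uxVal (guessVal d p.σ))).prod } := by
  induction l generalizing p q with
  | nil => simpa [Sys.Run] using ⟨Eq.symm, Eq.symm⟩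
  | cons x l ih =>
    constructor
    · rintro ⟨z, hz, h⟩
      obtain ⟨-, rfl⟩ := (run_ux x p z).1 hz
      rw [(ih (p := { p with g := p.g * uxVal (guessVal d p.σ) x }) hp _).1 h]
      simp [mul_assoc]
    · rintro rfl
      exact ⟨_, (run_ux x p _).2 ⟨fun _ _ _ => hp, rfl⟩, (ih (p := { p with g := p.g * uxVal (guessVal d p.σ) x }) hp _).2 (by simp [mul_assoc])⟩

/-- The three components as homomorphisms. -/
def projH (j : Fin 3) : Inner d →* Inner d where
  toFun := proj j
  map_one' := proj_one j
  map_mul' a b := by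
    match j with
    | 0 => simp [proj]
    | 1 => simp [proj]
    | 2 => simp [proj]

theorem proj_comm {j k : Fin 3} (h : j ≠ k) (a b : Inner d) :
    Commute (proj j a) (proj k b) := by
  match j, k with
  | 0, 0 | 1, 1 | 2, 2 => exact absurd rfl h
  | 0, 1 | 0, 2 | 1, 0 | 1, 2 | 2, 0 | 2, 1 => simp [proj, Commute, SemiconjBy]

/-- The first component alone. -/
def emb0 : d.Γ₀ →* Inner d := MonoidHom.inl _ _

/-- The second component alone. -/
def emb1 : FreeGroup (Fin 2) →* Inner d := (MonoidHom.inr _ _).comp (MonoidHom.inl _ _)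

/-- The third component alone. -/
def emb2' : FreeGroup (Fin 2) →* Inner d := (MonoidHom.inr _ _).comp (MonoidHom.inr _ _)

/-- Reading off the first component. -/
def prj0 : Inner d →* d.Γ₀ := MonoidHom.fst _ _

/-- Reading off the second component. -/
def prj1 : Inner d →* FreeGroup (Fin 2) := (MonoidHom.fst _ _).comp (MonoidHom.snd _ _)

/-- Reading off the third component. -/
def prj2 : Inner d →* FreeGroup (Fin 2) := (MonoidHom.snd _ _).comp (MonoidHom.snd _ _)

/-- Mixed words of a component. -/
abbrev Mixed (Γ : Type) [Group Γ] := Monoid.Coprod Γ (FreeGroup Unit)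

/-- The mixed word of a letter in component `j`. -/
def mixL {Γ : Type} [Group Γ] (π : Inner d →* Γ) (j : Fin 3) : UX d → Mixed Γ
  | (.inl i, true) => Monoid.Coprod.inl (π (d.gen i))
  | (.inl i, false) => (Monoid.Coprod.inl (π (d.gen i)))⁻¹
  | (.inr k, true) => if k = j then Monoid.Coprod.inr (FreeGroup.of ()) else 1
  | (.inr k, false) => (if k = j then Monoid.Coprod.inr (FreeGroup.of ()) else 1)⁻¹

/-- The mixed word of a list in component `j`. -/
def mixW {Γ : Type} [Group Γ] (π : Inner d →* Γ) (j : Fin 3) (l : List (UX d)) : Mixed Γ :=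
  (l.map (mixL π j)).prod

/-- A mixed word of a list evaluates to the component of its value. -/
theorem mev_mixW {Γ : Type} [Group Γ] (π : Inner d →* Γ) (j : Fin 3) (m : Inner d)
    (hj : π (proj j m) = π m) (hk : ∀ k, k ≠ j → π (proj k m) = 1) (l : List (UX d)) :
    Monoid.Coprod.lift (MonoidHom.id Γ) (FreeGroup.lift fun _ => π m) (mixW π j l) =
      π (l.map (uxVal m)).prod := by
  rw [mixW, map_list_prod, map_list_prod, List.map_map, List.map_map]
  congr 1
  refine List.map_congr_left fun x _ => ?_
  obtain ⟨i | k, _ | _⟩ := x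
  · simp [mixL, uxVal]
  · simp [mixL, uxVal]
  · by_cases h : k = j
    · subst h; simp [mixL, uxVal, hj]
    · simp [mixL, uxVal, h, hk k h]
  · by_cases h : k = j
    · subst h; simp [mixL, uxVal, hj]
    · simp [mixL, uxVal, h, hk k h]

variable {Df : Set (Point d) → Prop}
  {R : Set (Point d) → List (Letter d) → List (Letter d) → Prop} (C : Ctx hG Df R)
  {E : Set (Point d)} (hE : Flatset E) (hd : Df E)

/-- The congruence group on a flat set. -/
noncomputable def stab : Stable (sys hG) Df R (UX d) where
  laws := C.laws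
  f := uxL
  flip x := (x.1, !x.2)
  f_flip := by rintro ⟨_ | _, b⟩ <;> rfl
  E := E
  df := hd
  dom x := fun p hp => ⟨_, Sys.run_singleton.2
    ((run_ux x p _).2 ⟨fun _ _ _ => hE.guess p hp, rfl⟩)⟩
  img := hE.img

/-- Positive inner words as lists of letters. -/
def posX (v : List (Fin d.n)) : List (UX d) := v.map fun i => (.inl i, true)

omit C hE hd in
theorem posX_map (v : List (Fin d.n)) : (posX v).map (uxL (d := d)) = innerW v := by
  simp [posX, innerW, uxL, fw]

theorem cls_pos {a b : List (Fin d.n)} (h : (a.map d.gen).prod = (b.map d.gen).prod) :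
    (stab C hE hd).cls (posX a) = (stab C hE hd).cls (posX b) := by
  rw [Stable.cls_eq]
  show Rw (sys hG) Df R E ((posX a).map uxL) ((posX b).map uxL)
  rw [posX_map, posX_map]
  exact inner_eq C h hd

/-- The inner group in the congruence group. -/
noncomputable def inH : Inner d →* (stab C hE hd).Grp :=
  MonoidHom.mk' (fun m => (stab C hE hd).cls (posX (iw hG m))) fun a b => by
    rw [Stable.cls_mul, show posX (iw hG a) ++ posX (iw hG b) = posX (iw hG a ++ iw hG b) by
      simp [posX]]
    exact cls_pos C hE hd (by simp [iw_prod])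

/-- A component letter in the congruence group. -/
noncomputable def uH (j : Fin 3) : (stab C hE hd).Grp := (stab C hE hd).cls [(.inr j, true)]

theorem cls_inner (i : Fin d.n) :
    (stab C hE hd).cls [(.inl i, true)] = inH C hE hd (d.gen i) := by
  show (stab C hE hd).cls (posX [i]) = _
  exact cls_pos C hE hd (by simp [iw_prod])

theorem uH_comm (j k : Fin 3) (hjk : j ≠ k) : Commute (uH C hE hd j) (uH C hE hd k) := by
  unfold Commute SemiconjBy uH
  rw [Stable.cls_mul, Stable.cls_mul, Stable.cls_eq]
  refine C.use (small_le (by simp)) (small_le (by simp)) ?_ hd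
    ((stab C hE hd).sub_dom [(.inr j, true), (.inr k, true)]).1
  rintro p q ⟨z, hz, z', hz', rfl⟩
  obtain ⟨a, rfl⟩ := (run_ux (.inr j, true) p z).1 hz
  obtain ⟨-, rfl⟩ := (run_ux (.inr k, true) _ z').1 hz'
  have hp := a j true rfl
  refine ⟨_, (run_ux (.inr k, true) p _).2 ⟨fun _ _ _ => hp, rfl⟩, _,
    (run_ux (.inr j, true) _ _).2 ⟨fun _ _ _ => hp, rfl⟩, ?_⟩
  simp [Sys.Run, uxVal, mul_assoc, (proj_comm hjk _ _).eq]

theorem inH_comm (j k : Fin 3) (hjk : j ≠ k) (m : Inner d) :
    Commute (uH C hE hd j) (inH C hE hd (proj k m)) := by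
  obtain ⟨w, rfl⟩ := hG.gen_surj m
  show Commute _ (inH C hE hd (projH k (w.map d.gen).prod))
  rw [map_list_prod, map_list_prod]
  refine Commute.list_prod_right _ _ fun x hx => ?_
  simp only [List.mem_map] at hx
  obtain ⟨_, ⟨_, ⟨i, -, rfl⟩, rfl⟩, rfl⟩ := hx
  show Commute _ (inH C hE hd (proj k (d.gen i)))
  unfold Commute SemiconjBy uH
  simp only [inH, MonoidHom.mk'_apply, Stable.cls_mul, Stable.cls_eq]
  set c := iw hG (proj k (d.gen i)) with hc
  have hlen := iw_length (hG := hG) (m := proj k (d.gen i)) (Or.inl ⟨i, k, Or.inl rfl⟩)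
  refine C.use ?_ ?_ ?_ hd ((stab C hE hd).sub_dom _).1
  · simp only [posX, hc, List.length_map, List.length_append, List.length_singleton]; omega
  · simp only [posX, hc, List.length_map, List.length_append, List.length_singleton]; omega
  intro p q hpq
  change (sys hG).Run (([((.inr j, true) : UX d)] ++ posX c).map uxL) p q at hpq
  have hpq0 := hpq
  obtain ⟨z, hz, -⟩ := hpq
  have hp := ((run_ux (.inr j, true) p z).1 hz).1 j true rfl
  have hpq' := hpq0
  rw [run_uxW _ hp] at hpq'
  refine (run_uxW (hG := hG) (posX c ++ [(.inr j, true)]) hp q).2 (hpq'.trans ?_)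
  have e : ∀ l, (posX l).map (uxVal (guessVal d p.σ)) = l.map d.gen := fun l => by
    simp [posX, uxVal]
  simp [e, hc, iw_prod, uxVal, (proj_comm hjk (guessVal d p.σ) (d.gen i)).eq, mul_assoc]

/-- The map of one component. -/
noncomputable def compH {Γ : Type} [Group Γ] (emb : Γ →* Inner d) (j : Fin 3) :
    Mixed Γ →* (stab C hE hd).Grp :=
  Monoid.Coprod.lift ((inH C hE hd).comp emb) (FreeGroup.lift fun _ => uH C hE hd j)

theorem compH_comm {Γ Δ : Type} [Group Γ] [Group Δ] (emb : Γ →* Inner d) (emb' : Δ →* Inner d)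
    {j k : Fin 3} (hjk : j ≠ k) (he : ∀ g, emb g = proj j (emb g))
    (he' : ∀ g, emb' g = proj k (emb' g)) (a : Mixed Γ) (b : Mixed Δ) :
    Commute (compH C hE hd emb j a) (compH C hE hd emb' k b) := by
  have gens : ∀ x, (∀ g, Commute x (inH C hE hd (emb' g))) → Commute x (uH C hE hd k) →
      ∀ b : Mixed Δ, Commute x (compH C hE hd emb' k b) := by
    intro x h1 h2 b
    induction b using Monoid.Coprod.induction_on with
    | inl g => simpa [compH] using h1 g
    | inr f =>
      simp only [compH, Monoid.Coprod.lift_apply_inr]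
      induction f using FreeGroup.induction_on with
      | C1 => simp
      | of _ => simpa using h2
      | inv_of _ h => simpa using h.inv_right
      | mul _ _ ha hb => simpa using ha.mul_right hb
    | mul a b ha hb => simpa using ha.mul_right hb
  have left : ∀ y, (∀ g, Commute (inH C hE hd (emb g)) y) → Commute (uH C hE hd j) y →
      ∀ a : Mixed Γ, Commute (compH C hE hd emb j a) y := by
    intro y h1 h2 a
    induction a using Monoid.Coprod.induction_on with
    | inl g => simpa [compH] using h1 g
    | inr f =>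
      simp only [compH, Monoid.Coprod.lift_apply_inr]
      induction f using FreeGroup.induction_on with
      | C1 => simp
      | of _ => simpa using h2
      | inv_of _ h => simpa using h.inv_left
      | mul _ _ ha hb => simpa using ha.mul_left hb
    | mul a b ha hb => simpa using ha.mul_left hb
  refine gens _ (fun g => left _ (fun g' => ?_) ?_ a) (left _ (fun g' => ?_) ?_ a) b
  · rw [he g', he' g]
    exact (proj_comm hjk _ _).map _
  · rw [he' g]; exact inH_comm C hE hd j k hjk _
  · rw [he g']; exact (inH_comm C hE hd k j hjk.symm _).symm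
  · exact uH_comm C hE hd j k hjk

/-- All three components. -/
noncomputable def allH :
    Mixed d.Γ₀ × Mixed (FreeGroup (Fin 2)) × Mixed (FreeGroup (Fin 2)) →*
      (stab C hE hd).Grp :=
  MonoidHom.noncommCoprod (compH C hE hd emb0 0)
    (MonoidHom.noncommCoprod (compH C hE hd emb1 1) (compH C hE hd emb2' 2)
      fun a b => compH_comm C hE hd emb1 emb2' (by decide) (fun _ => rfl) (fun _ => rfl) a b)
    fun a b => by
      rw [MonoidHom.noncommCoprod_apply]
      exact (compH_comm C hE hd emb0 emb1 (by decide) (fun _ => rfl) (fun _ => rfl) a b.1).mul_right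
        (compH_comm C hE hd emb0 emb2' (by decide) (fun _ => rfl) (fun _ => rfl) a b.2)

theorem cls_letter (x : UX d) :
    (stab C hE hd).cls [x] = allH C hE hd (mixL prj0 0 x, mixL prj1 1 x, mixL prj2 2 x) := by
  have pos : ∀ s : Fin d.n ⊕ Fin 3, (stab C hE hd).cls [(s, true)] = allH C hE hd
      (mixL prj0 0 (s, true), mixL prj1 1 (s, true), mixL prj2 2 (s, true)) := by
    rintro (i | k)
    · rw [cls_inner]
      simp only [allH, MonoidHom.noncommCoprod_apply, compH, mixL, Monoid.Coprod.lift_apply_inl,
        MonoidHom.comp_apply, ← map_mul]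
      congr 1
      simp [emb0, emb1, emb2', prj0, prj1, prj2]
    · match k with
      | 0 => simp [allH, MonoidHom.noncommCoprod_apply, compH, mixL, uH]
      | 1 => simp [allH, MonoidHom.noncommCoprod_apply, compH, mixL, uH]
      | 2 => simp [allH, MonoidHom.noncommCoprod_apply, compH, mixL, uH]
  obtain ⟨s, _ | _⟩ := x
  · rw [show (stab C hE hd).cls [(s, false)] = ((stab C hE hd).cls [(s, true)])⁻¹ from rfl, pos,
      ← map_inv]
    obtain i | k := s <;> rfl
  · exact pos s

theorem cls_mix (l : List (UX d)) :
    (stab C hE hd).cls l = allH C hE hd (mixW prj0 0 l, mixW prj1 1 l, mixW prj2 2 l) := by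
  induction l with
  | nil => simp [mixW]; exact Stable.cls_nil _
  | cons x l ih =>
    rw [show x :: l = [x] ++ l from rfl, ← Stable.cls_mul, cls_letter, ih, ← map_mul]
    simp [mixW]

end Vale.Agent.P193.Core.Loops
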